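import Vale.Agent.P046.Extension

/-!
# Balanced rooted patterns

For a rooted pattern in which every set `K` of free vertices meets at least its share of the
edges, the maximum in the moment bound is `max 1 (n ^ v * q ^ e)`.
-/

set_option linter.unusedSectionVars false

namespace Vale.Agent.P046.Extension

open Finset

variable {V R : Type*} [Fintype V] [DecidableEq V] [Fintype R] [DecidableEq R]

/-- Every set of free vertices meets at least its share of the pattern edges. -/
def Balanced (H : Finset (Finset (V ⊕ R))) : Prop :=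
  ∀ K : Finset V, #H * #K ≤ #(touching H K) * Fintype.card V

/-- The maximum in `moment_count_le` for a balanced pattern. -/
theorem max_bound_of_balanced {H : Finset (Finset (V ⊕ R))} (hb : Balanced H) {n : ℕ} {q : ℝ}
    (hq0 : 0 ≤ q) (hq1 : q ≤ 1) (K : Finset V) :
    (n : ℝ) ^ #K * q ^ #(touching H K) ≤ max 1 ((n : ℝ) ^ Fintype.card V * q ^ #H) := by
  set X := (n : ℝ) ^ Fintype.card V * q ^ #H with hX
  set Y := (n : ℝ) ^ #K * q ^ #(touching H K) with hY
  have hY0 : 0 ≤ Y := by positivity
  have hX0 : 0 ≤ X := by positivity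
  rcases Nat.eq_zero_or_pos (Fintype.card V) with hv | hv
  · have hK : #K = 0 := by have := card_le_univ K; omega
    have : Y ≤ 1 := by
      rw [hY, hK, pow_zero, one_mul]
      exact pow_le_one₀ hq0 hq1
    exact this.trans (le_max_left _ _)
  have hK : #K ≤ Fintype.card V := card_le_univ K
  have h : Y ^ Fintype.card V ≤ (max 1 X) ^ Fintype.card V :=
    calc Y ^ Fintype.card V
        = (n : ℝ) ^ (#K * Fintype.card V) * q ^ (#(touching H K) * Fintype.card V) := by
          rw [hY, mul_pow, ← pow_mul, ← pow_mul]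
      _ ≤ (n : ℝ) ^ (#K * Fintype.card V) * q ^ (#H * #K) :=
          mul_le_mul_of_nonneg_left (pow_le_pow_of_le_one hq0 hq1 (hb K)) (by positivity)
      _ = X ^ #K := by rw [hX, mul_pow, ← pow_mul, ← pow_mul, Nat.mul_comm #K]
      _ ≤ (max 1 X) ^ #K := pow_le_pow_left₀ hX0 (le_max_right _ _) _
      _ ≤ (max 1 X) ^ Fintype.card V := pow_le_pow_right₀ (le_max_left _ _) hK
  exact le_of_pow_le_pow_left₀ hv.ne' (le_trans zero_le_one (le_max_left _ _)) h

/-- Walks of three steps in the link of the pivot: roots `0` (pivot), `1`, `2` (the two ends),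
free vertices `0`, `1`. -/
def linkWalk3 : Finset (Finset (Fin 2 ⊕ Fin 3)) :=
  {{Sum.inr 0, Sum.inl 0}, {Sum.inr 0, Sum.inl 1}, {Sum.inr 1, Sum.inl 0},
    {Sum.inl 0, Sum.inl 1}, {Sum.inl 1, Sum.inr 2}}

/-- Common neighbours of three roots. -/
def commonNbr3 : Finset (Finset (Fin 1 ⊕ Fin 3)) :=
  {{Sum.inr 0, Sum.inl 0}, {Sum.inr 1, Sum.inl 0}, {Sum.inr 2, Sum.inl 0}}

/-- Two further vertices completing a clique of four vertices on a root edge. -/
def cliqueOnEdge : Finset (Finset (Fin 2 ⊕ Fin 2)) :=
  {{Sum.inr 0, Sum.inl 0}, {Sum.inr 1, Sum.inl 0}, {Sum.inr 0, Sum.inl 1},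
    {Sum.inr 1, Sum.inl 1}, {Sum.inl 0, Sum.inl 1}}

theorem linkWalk3_balanced : Balanced linkWalk3 := by
  unfold Balanced touching linkWalk3
  decide

theorem linkWalk3_card : linkWalk3.card = 5 := by decide

theorem commonNbr3_balanced : Balanced commonNbr3 := by
  unfold Balanced touching commonNbr3
  decide

theorem commonNbr3_card : commonNbr3.card = 3 := by decide

theorem cliqueOnEdge_balanced : Balanced cliqueOnEdge := by
  unfold Balanced touching cliqueOnEdge
  decide

theorem cliqueOnEdge_card : cliqueOnEdge.card = 5 := by decide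

end Vale.Agent.P046.Extension
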