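import Vale.Agent.P046.Trajectory

/-!
The random triangle removal chain: step average, killed expectations, supermartingale bounds and
the survival bound for a fixed set of edges.
-/

namespace Vale.Agent.P046

open Finset

namespace Chain

variable {n : ℕ}

/-- States: edge sets. -/
abbrev St (n : ℕ) := Finset (Finset (Fin n))

/-- One step of triangle removal applied to an observable (stopped if there is no triangle). -/
noncomputable def avg (f : St n → ℝ) (E : St n) : ℝ :=
  if triangles E = ∅ then f E
  else (∑ t ∈ triangles E, f (E \ sides t)) / (triangles E).card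

/-- `killed Good k f j E`: starting from `E` at time `j`, the expectation of `f (j+k)` at time
`j+k` on the event that `Good` held at each of the times `j, …, j+k-1`. -/
noncomputable def killed (Good : ℕ → St n → Prop) : ℕ → (ℕ → St n → ℝ) → ℕ → St n → ℝ
  | 0, f, j, E => f j E
  | k + 1, f, j, E =>
      haveI := Classical.dec (Good j E)
      if Good j E then avg (killed Good k f (j + 1)) E else 0

/-- Successor relation of the chain. -/
def Succ (E F : St n) : Prop := F = E ∧ triangles E = ∅ ∨ ∃ t ∈ triangles E, F = E \ sides t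

lemma Succ.subset {E F : St n} (h : Succ E F) : F ⊆ E := by
  rcases h with ⟨rfl, _⟩ | ⟨t, _, rfl⟩
  · exact subset_rfl
  · exact sdiff_subset

lemma succ_mem {E : St n} {t : Finset (Fin n)} (ht : t ∈ triangles E) : Succ E (E \ sides t) :=
  Or.inr ⟨t, ht, rfl⟩

lemma avg_mono {f g : St n → ℝ} {E : St n} (h : ∀ F, Succ E F → f F ≤ g F) :
    avg f E ≤ avg g E := by
  unfold avg
  split_ifs with h0
  · exact h E (Or.inl ⟨rfl, h0⟩)
  · exact div_le_div_of_nonneg_right (sum_le_sum fun t ht => h _ (succ_mem ht))
      (Nat.cast_nonneg _)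

lemma avg_congr {f g : St n → ℝ} {E : St n} (h : ∀ F, Succ E F → f F = g F) :
    avg f E = avg g E :=
  le_antisymm (avg_mono fun F hF => (h F hF).le) (avg_mono fun F hF => (h F hF).ge)

lemma avg_const (c : ℝ) (E : St n) : avg (fun _ => c) E = c := by
  unfold avg
  split_ifs with h0
  · rfl
  · have : ((triangles E).card : ℝ) ≠ 0 := by
      exact_mod_cast (card_pos.2 (nonempty_iff_ne_empty.2 h0)).ne'
    rw [sum_const, nsmul_eq_mul]
    field_simp

lemma avg_nonneg {f : St n → ℝ} {E : St n} (h : ∀ F, Succ E F → 0 ≤ f F) : 0 ≤ avg f E := by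
  calc (0 : ℝ) = avg (fun _ => (0 : ℝ)) E := (avg_const 0 E).symm
    _ ≤ avg f E := avg_mono h

lemma avg_add (f g : St n → ℝ) (E : St n) :
    avg (fun F => f F + g F) E = avg f E + avg g E := by
  unfold avg
  split_ifs
  · rfl
  · rw [sum_add_distrib, add_div]

lemma avg_mul (c : ℝ) (f : St n → ℝ) (E : St n) :
    avg (fun F => c * f F) E = c * avg f E := by
  unfold avg
  split_ifs
  · rfl
  · rw [← mul_sum, mul_div_assoc]

lemma avg_sum {ι : Type*} (s : Finset ι) (f : ι → St n → ℝ) (E : St n) :
    avg (fun F => ∑ i ∈ s, f i F) E = ∑ i ∈ s, avg (f i) E := by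
  classical
  induction s using Finset.induction with
  | empty => simpa using avg_const 0 E
  | insert a s ha ih => simp_rw [sum_insert ha]; rw [avg_add, ih]

variable {Good : ℕ → St n → Prop}

@[simp] lemma killed_zero (f : ℕ → St n → ℝ) (j : ℕ) (E : St n) :
    killed Good 0 f j E = f j E := rfl

lemma killed_succ_of_good {k : ℕ} {f : ℕ → St n → ℝ} {j : ℕ} {E : St n} (h : Good j E) :
    killed Good (k + 1) f j E = avg (killed Good k f (j + 1)) E := by
  simp [killed, h]

lemma killed_succ_of_not_good {k : ℕ} {f : ℕ → St n → ℝ} {j : ℕ} {E : St n} (h : ¬ Good j E) :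
    killed Good (k + 1) f j E = 0 := by
  simp [killed, h]

lemma killed_mono {f g : ℕ → St n → ℝ} (k : ℕ) (j : ℕ) (E : St n)
    (h : ∀ F, F ⊆ E → f (j + k) F ≤ g (j + k) F) : killed Good k f j E ≤ killed Good k g j E := by
  induction k generalizing j E with
  | zero => exact h E subset_rfl
  | succ k ih =>
    by_cases hg : Good j E
    · rw [killed_succ_of_good hg, killed_succ_of_good hg]
      refine avg_mono fun F hF => ih (j + 1) F fun G hG => ?_
      have := h G (hG.trans hF.subset)
      rwa [show j + 1 + k = j + (k + 1) by ring]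
    · rw [killed_succ_of_not_good hg, killed_succ_of_not_good hg]

lemma killed_nonneg {f : ℕ → St n → ℝ} (k : ℕ) (j : ℕ) (E : St n) (h : ∀ i F, 0 ≤ f i F) :
    0 ≤ killed Good k f j E := by
  induction k generalizing j E with
  | zero => exact h j E
  | succ k ih =>
    by_cases hg : Good j E
    · rw [killed_succ_of_good hg]; exact avg_nonneg fun F _ => ih (j + 1) F
    · rw [killed_succ_of_not_good hg]

lemma killed_add_fun (f g : ℕ → St n → ℝ) (k j : ℕ) (E : St n) :
    killed Good k (fun i F => f i F + g i F) j E = killed Good k f j E + killed Good k g j E := by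
  induction k generalizing j E with
  | zero => rfl
  | succ k ih =>
    by_cases hg : Good j E
    · rw [killed_succ_of_good hg, killed_succ_of_good hg, killed_succ_of_good hg, ← avg_add]
      exact avg_congr fun F _ => ih (j + 1) F
    · simp [killed_succ_of_not_good hg]

lemma killed_mul (c : ℝ) (f : ℕ → St n → ℝ) (k j : ℕ) (E : St n) :
    killed Good k (fun i F => c * f i F) j E = c * killed Good k f j E := by
  induction k generalizing j E with
  | zero => rfl
  | succ k ih =>
    by_cases hg : Good j E
    · rw [killed_succ_of_good hg, killed_succ_of_good hg, ← avg_mul]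
      exact avg_congr fun F _ => ih (j + 1) F
    · simp [killed_succ_of_not_good hg]

lemma killed_sum {ι : Type*} (s : Finset ι) (f : ι → ℕ → St n → ℝ) (k j : ℕ) (E : St n) :
    killed Good k (fun i F => ∑ a ∈ s, f a i F) j E = ∑ a ∈ s, killed Good k (f a) j E := by
  induction k generalizing j E with
  | zero => rfl
  | succ k ih =>
    by_cases hg : Good j E
    · simp_rw [killed_succ_of_good hg]
      rw [← avg_sum]
      exact avg_congr fun F _ => ih (j + 1) F
    · simp [killed_succ_of_not_good hg]

/-- Markov property. -/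
lemma killed_append (f : ℕ → St n → ℝ) (k l j : ℕ) (E : St n) :
    killed Good (k + l) f j E = killed Good k (fun i F => killed Good l f i F) j E := by
  induction k generalizing j E with
  | zero => simp
  | succ k ih =>
    rw [show k + 1 + l = (k + l) + 1 by ring]
    by_cases hg : Good j E
    · rw [killed_succ_of_good hg, killed_succ_of_good hg]
      exact avg_congr fun F _ => ih (j + 1) F
    · simp [killed_succ_of_not_good hg]

open Classical in
/-- Exact decomposition according to the first exit from `Good`. -/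
lemma killed_exit (k j : ℕ) (E : St n) :
    killed Good k (fun _ _ => 1) j E +
      ∑ i ∈ range k, killed Good i (fun a F => if Good a F then 0 else 1) j E = 1 := by
  induction k generalizing j E with
  | zero => simp
  | succ k ih =>
    rw [sum_range_succ']
    by_cases hg : Good j E
    · simp_rw [killed_succ_of_good hg, killed_zero, if_pos hg, add_zero]
      rw [← avg_sum, ← avg_add, avg_congr (g := fun _ => (1 : ℝ)) fun F _ => ih (j + 1) F]
      exact avg_const 1 E
    · simp [killed_succ_of_not_good hg, killed_zero, hg]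

/-- Supermartingale bound on the killed chain, under an invariant of the chain. -/
theorem killed_le_of_step (Inv : ℕ → St n → Prop)
    (hInv : ∀ i E F, Inv i E → Good i E → Succ E F → Inv (i + 1) F)
    (Φ : ℕ → St n → ℝ) (hΦ : ∀ i F, 0 ≤ Φ i F) (c : ℕ → ℝ) (hc : ∀ i, 0 ≤ c i)
    (hstep : ∀ i E, Inv i E → Good i E → avg (Φ (i + 1)) E ≤ c i * Φ i E)
    (k j : ℕ) (E : St n) (hE : Inv j E) :
    killed Good k Φ j E ≤ (∏ i ∈ range k, c (j + i)) * Φ j E := by
  induction k generalizing j E with
  | zero => simp
  | succ k ih =>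
    by_cases hg : Good j E
    · rw [killed_succ_of_good hg]
      calc avg (killed Good k Φ (j + 1)) E
          ≤ avg (fun F => (∏ i ∈ range k, c (j + 1 + i)) * Φ (j + 1) F) E :=
            avg_mono fun F hF => ih (j + 1) F (hInv j E F hE hg hF)
        _ ≤ (∏ i ∈ range k, c (j + 1 + i)) * (c j * Φ j E) := by
            rw [avg_mul]
            exact mul_le_mul_of_nonneg_left (hstep j E hE hg) (prod_nonneg fun i _ => hc _)
        _ = (∏ i ∈ range (k + 1), c (j + i)) * Φ j E := by
            rw [prod_range_succ', Nat.add_zero]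
            rw [prod_congr rfl fun i _ => show c (j + (i + 1)) = c (j + 1 + i) by
              rw [Nat.add_comm i 1, Nat.add_assoc]]
            ring_nf
    · rw [killed_succ_of_not_good hg]
      exact mul_nonneg (prod_nonneg fun i _ => hc _) (hΦ j E)

/-- Unrestricted expectation. -/
noncomputable def expect (k : ℕ) (f : ℕ → St n → ℝ) (j : ℕ) (E : St n) : ℝ :=
  killed (fun _ _ => True) k f j E

lemma expect_succ (k : ℕ) (f : ℕ → St n → ℝ) (j : ℕ) (E : St n) :
    expect (k + 1) f j E = avg (expect k f (j + 1)) E :=
  killed_succ_of_good trivial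

lemma expect_const (c : ℝ) (k j : ℕ) (E : St n) : expect k (fun _ _ => c) j E = c := by
  induction k generalizing j E with
  | zero => rfl
  | succ k ih => rw [expect_succ, avg_congr (g := fun _ => c) fun F _ => ih (j + 1) F, avg_const]

/-- Leaving `Good` costs at most the probability of leaving times the supremum. -/
theorem expect_le_killed {B : ℝ} (f : ℕ → St n → ℝ) (k j : ℕ) (E : St n)
    (hB : ∀ F, F ⊆ E → f (j + k) F ≤ B) :
    expect k f j E ≤ killed Good k f j E + B * (1 - killed Good k (fun _ _ => 1) j E) := by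
  induction k generalizing j E with
  | zero => simp [expect]
  | succ k ih =>
    by_cases hg : Good j E
    · rw [expect_succ, killed_succ_of_good hg, killed_succ_of_good hg]
      refine (avg_mono (g := fun F => killed Good k f (j + 1) F +
        (B + (-B) * killed Good k (fun _ _ => 1) (j + 1) F)) fun F hF => ?_).trans_eq ?_
      · refine (ih (j + 1) F fun G hG => ?_).trans_eq (by ring)
        rw [show j + 1 + k = j + (k + 1) by ring]
        exact hB G (hG.trans hF.subset)
      · rw [avg_add, avg_add, avg_const, avg_mul]; ring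
    · rw [killed_succ_of_not_good hg, killed_succ_of_not_good hg, zero_add, sub_zero, mul_one]
      calc expect (k + 1) f j E ≤ expect (k + 1) (fun _ _ => B) j E :=
            killed_mono (k + 1) j E hB
        _ = B := expect_const B _ _ _

/-! ### Exponential tail -/

open Classical in
theorem exp_step (A : St n → Prop) (hA : ∀ E F, Succ E F → A F → A E) (z z' : St n → ℝ)
    (E : St n) (a v R l : ℝ) (hl : 0 ≤ l) (hlR : l * R ≤ 1)
    (hR : A E → ∀ F, Succ E F → A F → |z' F - z E| ≤ R)
    (ha : A E → avg (fun F => if A F then z' F - z E else 0) E ≤ a)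
    (hv : A E → avg (fun F => if A F then (z' F - z E) ^ 2 else 0) E ≤ v) :
    avg (fun F => if A F then Real.exp (l * z' F) else 0) E ≤
      Real.exp (l * a + l ^ 2 * v) * (if A E then Real.exp (l * z E) else 0) := by
  by_cases hAE : A E
  · rw [if_pos hAE]
    have hz : 0 < Real.exp (l * z E) := Real.exp_pos _
    calc avg (fun F => if A F then Real.exp (l * z' F) else 0) E
        ≤ avg (fun F => Real.exp (l * z E) * (1 + (l * (if A F then z' F - z E else 0) +
            l ^ 2 * (if A F then (z' F - z E) ^ 2 else 0)))) E := by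
          refine avg_mono fun F hF => ?_
          by_cases hAF : A F
          · simp only [if_pos hAF]
            have hb : |l * (z' F - z E)| ≤ 1 := by
              rw [abs_mul, abs_of_nonneg hl]
              exact (mul_le_mul_of_nonneg_left (hR hAE F hF hAF) hl).trans hlR
            have h1 := (abs_le.1 (Real.abs_exp_sub_one_sub_id_le hb)).2
            rw [show l * z' F = l * z E + l * (z' F - z E) by ring, Real.exp_add]
            refine mul_le_mul_of_nonneg_left ?_ hz.le
            nlinarith
          · simp only [if_neg hAF]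
            simpa using hz.le
      _ = Real.exp (l * z E) * (1 + (l * avg (fun F => if A F then z' F - z E else 0) E +
            l ^ 2 * avg (fun F => if A F then (z' F - z E) ^ 2 else 0) E)) := by
          simp only [avg_mul, avg_add, avg_const]
      _ ≤ Real.exp (l * z E) * (1 + (l * a + l ^ 2 * v)) := by
          refine mul_le_mul_of_nonneg_left ?_ hz.le
          have h1 := mul_le_mul_of_nonneg_left (ha hAE) hl
          have h2 := mul_le_mul_of_nonneg_left (hv hAE) (sq_nonneg l)
          linarith
      _ ≤ Real.exp (l * a + l ^ 2 * v) * Real.exp (l * z E) := by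
          rw [mul_comm]
          exact mul_le_mul_of_nonneg_right (by linarith [Real.add_one_le_exp (l * a + l ^ 2 * v)])
            hz.le
  · rw [if_neg hAE, mul_zero]
    refine (avg_mono (g := fun _ => (0 : ℝ)) fun F hF => ?_).trans_eq (avg_const 0 E)
    rw [if_neg fun h => hAE (hA E F hF h)]

open Classical in
/-- Freedman-type tail for an observable followed while `Good` holds and `A` is alive. -/
theorem killed_tail (Inv : ℕ → St n → Prop)
    (hInv : ∀ i E F, Inv i E → Good i E → Succ E F → Inv (i + 1) F)
    (A : St n → Prop) (hA : ∀ E F, Succ E F → A F → A E) (z : ℕ → St n → ℝ)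
    (a v R : ℕ → ℝ) (l : ℝ) (hl : 0 ≤ l) (hlR : ∀ i, l * R i ≤ 1)
    (hR : ∀ i E, Inv i E → Good i E → A E → ∀ F, Succ E F → A F →
      |z (i + 1) F - z i E| ≤ R i)
    (ha : ∀ i E, Inv i E → Good i E → A E →
      avg (fun F => if A F then z (i + 1) F - z i E else 0) E ≤ a i)
    (hv : ∀ i E, Inv i E → Good i E → A E →
      avg (fun F => if A F then (z (i + 1) F - z i E) ^ 2 else 0) E ≤ v i)
    (k j : ℕ) (E : St n) (hE : Inv j E) (θ : ℝ) :
    killed Good k (fun i F =>
        if A F ∧ z j E + (∑ b ∈ range k, a (j + b)) + θ ≤ z i F then 1 else 0) j E ≤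
      Real.exp (-(l * θ) + l ^ 2 * ∑ b ∈ range k, v (j + b)) := by
  set S := ∑ b ∈ range k, a (j + b) with hS
  set V := ∑ b ∈ range k, v (j + b) with hV
  set u := z j E + S + θ with hu
  have h1 := killed_le_of_step (Good := Good) Inv hInv
    (fun i F => if A F then Real.exp (l * z i F) else 0)
    (fun i F => by split_ifs <;> simp [Real.exp_nonneg])
    (fun i => Real.exp (l * a i + l ^ 2 * v i)) (fun i => (Real.exp_pos _).le)
    (fun i F hi hg => exp_step A hA (z i) (z (i + 1)) F _ _ _ l hl (hlR i)
      (hR i F hi hg) (ha i F hi hg) (hv i F hi hg)) k j E hE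
  calc killed Good k (fun i F => if A F ∧ u ≤ z i F then 1 else 0) j E
      ≤ killed Good k (fun i F =>
          Real.exp (-(l * u)) * (if A F then Real.exp (l * z i F) else 0)) j E := by
        refine killed_mono k j E fun F _ => ?_
        by_cases h : A F ∧ u ≤ z (j + k) F
        · rw [if_pos h, if_pos h.1, ← Real.exp_add]
          exact Real.one_le_exp (by nlinarith [mul_le_mul_of_nonneg_left h.2 hl])
        · rw [if_neg h]
          split_ifs <;> positivity
    _ ≤ Real.exp (-(l * u)) * (Real.exp (l * S + l ^ 2 * V) * Real.exp (l * z j E)) := by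
        rw [killed_mul]
        refine mul_le_mul_of_nonneg_left (h1.trans ?_) (Real.exp_pos _).le
        rw [← Real.exp_sum, sum_add_distrib, ← mul_sum, ← mul_sum]
        refine mul_le_mul_of_nonneg_left ?_ (Real.exp_pos _).le
        split_ifs <;> simp [Real.exp_nonneg]
    _ = Real.exp (-(l * θ) + l ^ 2 * V) := by
        rw [← Real.exp_add, ← Real.exp_add]
        congr 1
        rw [hu]; ring

/-! ### Survival of a set of edges -/

/-- Codegree: the number of triangles through `e`. -/
noncomputable def deg (E : St n) (e : Finset (Fin n)) : ℕ :=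
  ((triangles E).filter fun t => e ∈ sides t).card

/-- The triangles meeting `S` are at least the sum of codegrees less the number of ordered
pairs in `S`. -/
lemma hit_lower (E S : St n) :
    (∑ e ∈ S, (deg E e : ℝ)) - (S.card : ℝ) * ((S.card : ℝ) - 1) ≤
      ((triangles E).filter fun t => ¬ Disjoint (sides t) S).card := by
  set T := triangles E with hT
  have hone : ∀ p ∈ S.offDiag, (T.filter fun t => p.1 ∈ sides t ∧ p.2 ∈ sides t).card ≤ 1 := by
    intro p hp
    rw [card_le_one]
    intro t ht u hu
    simp only [mem_filter] at ht hu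
    by_contra hne
    exact (mem_offDiag.1 hp).2.2 (card_le_one.1 (common_sides ht.1 hu.1 hne) p.1
      (mem_inter.2 ⟨ht.2.1, hu.2.1⟩) p.2 (mem_inter.2 ⟨ht.2.2, hu.2.2⟩))
  have e1 : ∑ e ∈ S, deg E e = ∑ t ∈ T, (S.filter fun e => e ∈ sides t).card := by
    simp only [deg, ← hT, card_filter]
    exact sum_comm
  have e2 : ∀ t ∈ T, (S.filter fun e => e ∈ sides t).card ≤
      (if ¬ Disjoint (sides t) S then 1 else 0) +
        (S.offDiag.filter fun p => p.1 ∈ sides t ∧ p.2 ∈ sides t).card := by
    intro t _
    set A := S.filter fun e => e ∈ sides t with hA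
    have hsub : A.offDiag ⊆ S.offDiag.filter fun p => p.1 ∈ sides t ∧ p.2 ∈ sides t := by
      intro p hp
      simp only [hA, mem_offDiag, mem_filter] at hp ⊢
      exact ⟨⟨hp.1.1, hp.2.1.1, hp.2.2⟩, hp.1.2, hp.2.1.2⟩
    have h3 := card_le_card hsub
    rw [offDiag_card] at h3
    rcases Nat.eq_zero_or_pos A.card with h0 | h0
    · omega
    · obtain ⟨e, he⟩ := card_pos.1 h0
      have hd : ¬ Disjoint (sides t) S :=
        fun hd => disjoint_left.1 hd (mem_filter.1 he).2 (mem_filter.1 he).1
      rw [if_pos hd]
      rcases Nat.lt_or_ge A.card 2 with h2 | h2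
      · omega
      · have : 2 * A.card ≤ A.card * A.card := Nat.mul_le_mul_right _ h2
        omega
  have e3 : ∑ e ∈ S, deg E e ≤
      (T.filter fun t => ¬ Disjoint (sides t) S).card + S.offDiag.card := by
    rw [e1]
    refine (sum_le_sum e2).trans ?_
    rw [sum_add_distrib, ← card_filter]
    refine Nat.add_le_add_left ?_ _
    simp only [card_filter]
    rw [sum_comm]
    simp only [← card_filter]
    exact (sum_le_sum hone).trans (by simp)
  have e4 : (S.offDiag.card : ℝ) = (S.card : ℝ) * ((S.card : ℝ) - 1) := by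
    rw [offDiag_card, Nat.cast_sub (Nat.le_mul_self _)]
    push_cast; ring
  have := (Nat.cast_le (α := ℝ)).2 e3
  push_cast at this
  linarith

open Classical in
lemma avg_survive (E S : St n) (hS : S ⊆ E) (hne : triangles E ≠ ∅) :
    avg (fun F => if S ⊆ F then 1 else 0) E =
      1 - (((triangles E).filter fun t => ¬ Disjoint (sides t) S).card : ℝ) /
        (triangles E).card := by
  have hpos : ((triangles E).card : ℝ) ≠ 0 := by
    exact_mod_cast (card_pos.2 (nonempty_iff_ne_empty.2 hne)).ne'
  unfold avg
  rw [if_neg hne]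
  have h1 : ∀ t ∈ triangles E, (if S ⊆ E \ sides t then (1 : ℝ) else 0) =
      1 - (if ¬ Disjoint (sides t) S then 1 else 0) := by
    intro t _
    by_cases h : Disjoint (sides t) S
    · simp [h, subset_sdiff, hS, h.symm]
    · have : ¬ Disjoint S (sides t) := fun h' => h h'.symm
      simp [h, subset_sdiff, this]
  rw [sum_congr rfl h1, sum_sub_distrib, sum_boole]
  simp only [sum_const, nsmul_eq_mul, mul_one]
  field_simp

open Classical in
/-- Upper tool: a fixed set of edges survives while the chain is good with probability at most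
the product of the one-step bounds. -/
theorem survive_le (Inv : ℕ → St n → Prop)
    (hInv : ∀ i E F, Inv i E → Good i E → Succ E F → Inv (i + 1) F) (S : St n)
    (dlo Qhi : ℕ → ℝ)
    (hQ : ∀ i E, Inv i E → Good i E → S ⊆ E →
      triangles E ≠ ∅ ∧ ((triangles E).card : ℝ) ≤ Qhi i)
    (hd : ∀ i E, Inv i E → Good i E → S ⊆ E → ∀ e ∈ S, dlo i ≤ deg E e)
    (k j : ℕ) (E : St n) (hE : Inv j E) :
    killed Good k (fun _ F => if S ⊆ F then 1 else 0) j E ≤
      (∏ i ∈ range k,
        max 0 (1 - (S.card : ℝ) * (dlo (j + i) - ((S.card : ℝ) - 1)) / Qhi (j + i))) *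
        (if S ⊆ E then 1 else 0) := by
  refine killed_le_of_step Inv hInv (fun _ F => if S ⊆ F then (1 : ℝ) else 0)
    (fun i F => by split_ifs <;> norm_num)
    (fun i => max 0 (1 - (S.card : ℝ) * (dlo i - ((S.card : ℝ) - 1)) / Qhi i))
    (fun i => le_max_left _ _) ?_ k j E hE
  intro i F hi hg
  by_cases hSF : S ⊆ F
  · rw [if_pos hSF, mul_one, avg_survive F S hSF (hQ i F hi hg hSF).1]
    obtain ⟨hne, hq⟩ := hQ i F hi hg hSF
    set H := (((triangles F).filter fun t => ¬ Disjoint (sides t) S).card : ℝ) with hH
    set Q := ((triangles F).card : ℝ) with hQdef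
    have hQpos : 0 < Q := Nat.cast_pos.2 (card_pos.2 (nonempty_iff_ne_empty.2 hne))
    set a := (S.card : ℝ) * (dlo i - ((S.card : ℝ) - 1)) with ha
    have haH : a ≤ H := by
      have h1 := hit_lower F S
      have h2 : (S.card : ℝ) * dlo i ≤ ∑ e ∈ S, (deg F e : ℝ) := by
        rw [← nsmul_eq_mul, ← sum_const]
        exact sum_le_sum (hd i F hi hg hSF)
      rw [ha, mul_sub]
      linarith
    refine le_max_of_le_right (sub_le_sub_left ?_ 1)
    rcases le_or_gt a 0 with h0 | h0
    · exact le_trans (div_nonpos_of_nonpos_of_nonneg h0 (hQpos.le.trans hq)) (by positivity)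
    · calc a / Qhi i ≤ a / Q := div_le_div_of_nonneg_left h0.le hQpos hq
        _ ≤ H / Q := div_le_div_of_nonneg_right haH hQpos.le
  · rw [if_neg hSF, mul_zero]
    refine (avg_mono (g := fun _ => (0 : ℝ)) fun G hG => ?_).trans_eq (avg_const 0 F)
    rw [if_neg fun h => hSF (h.trans hG.subset)]

/-- Bernoulli form of a survival factor: `1 - 3a/m ≤ ((m-3)/m)^a` for `a ≥ 1`. -/
lemma factor_le_rpow {a m : ℝ} (ha : 1 ≤ a) (hm : 3 ≤ m) :
    max 0 (1 - 3 * a / m) ≤ ((m - 3) / m) ^ a := by
  have hm0 : 0 < m := by linarith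
  refine max_le (Real.rpow_nonneg (div_nonneg (by linarith) hm0.le) a) ?_
  have h := one_add_mul_self_le_rpow_one_add (s := -(3 / m)) (by
    rw [neg_le_neg_iff, div_le_one hm0]; exact hm) ha
  rw [show (1 : ℝ) + -(3 / m) = (m - 3) / m by field_simp; ring] at h
  refine le_trans (le_of_eq ?_) h
  field_simp
  ring

/-- The killed expectation is monotone in the good event. -/
lemma killed_mono_good {Good' : ℕ → St n → Prop} (hGG : ∀ i F, Good i F → Good' i F)
    {f : ℕ → St n → ℝ} (hf : ∀ i F, 0 ≤ f i F) (k j : ℕ) (E : St n) :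
    killed Good k f j E ≤ killed Good' k f j E := by
  induction k generalizing j E with
  | zero => exact le_rfl
  | succ k ih =>
    by_cases hg : Good j E
    · rw [killed_succ_of_good hg, killed_succ_of_good (hGG j E hg)]
      exact avg_mono fun F _ => ih (j + 1) F
    · rw [killed_succ_of_not_good hg]
      exact killed_nonneg _ _ _ hf

/-- Invariant: subgraph of the initial graph with three edges fewer per step. -/
def SizeInv (E₀ : St n) (i : ℕ) (E : St n) : Prop := E ⊆ E₀ ∧ E.card + 3 * i = E₀.card

lemma sizeInv_zero (E₀ : St n) : SizeInv E₀ 0 E₀ := ⟨subset_rfl, by simp⟩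

lemma sizeInv_succ {E₀ : St n} {i : ℕ} {E F : St n} (hE : SizeInv E₀ i E)
    (hne : triangles E ≠ ∅) (h : Succ E F) : SizeInv E₀ (i + 1) F := by
  refine ⟨h.subset.trans hE.1, ?_⟩
  rcases h with ⟨_, h0⟩ | ⟨t, ht, rfl⟩
  · exact absurd h0 hne
  · rw [card_sdiff_sides ht]
    have := three_le_card ht
    have := hE.2
    omega

/-- The survival product telescopes: if every factor is at most `1 - 3a/(m₀-3i)` then the product
is at most `((m₀-3k)/m₀)^a`. -/
lemma prod_factor_le_rpow {a m₀ : ℝ} (ha : 1 ≤ a) {k : ℕ} (hm : 3 * (k : ℝ) ≤ m₀) (hm0 : 0 < m₀)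
    (x : ℕ → ℝ) (hx0 : ∀ i < k, 0 ≤ x i)
    (hx : ∀ i < k, x i ≤ max 0 (1 - 3 * a / (m₀ - 3 * i))) :
    ∏ i ∈ range k, x i ≤ ((m₀ - 3 * k) / m₀) ^ a := by
  induction k with
  | zero => simp [hm0.ne']
  | succ k ih =>
    push_cast at hm ⊢
    rw [prod_range_succ]
    have h3 : 3 ≤ m₀ - 3 * k := by linarith
    calc (∏ i ∈ range k, x i) * x k
        ≤ ((m₀ - 3 * k) / m₀) ^ a * ((m₀ - 3 * k - 3) / (m₀ - 3 * k)) ^ a := by
          refine mul_le_mul (ih (by linarith) (fun i hi => hx0 i (by omega))
            (fun i hi => hx i (by omega))) ((hx k (by omega)).trans (factor_le_rpow ha h3))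
            (hx0 k (by omega)) (Real.rpow_nonneg (div_nonneg (by linarith) hm0.le) a)
      _ = ((m₀ - 3 * (k + 1)) / m₀) ^ a := by
          rw [← Real.mul_rpow (div_nonneg (by linarith) hm0.le)
            (div_nonneg (by linarith) (by linarith)), ← mul_div_mul_comm]
          congr 1
          rw [mul_comm m₀, mul_div_mul_left _ _ (by linarith : m₀ - 3 * (k : ℝ) ≠ 0)]
          ring

end Chain

end Vale.Agent.P046
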