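import Vale.Agent.P046.Trajectory

/-!
# P046: expectations along the removal process, and the presence of a fixed edge set

`EX Good k i E f` is the expectation of `f` at step `k + i` of the process started at step `k` from
`E`, counted only on the event that `Good j` holds at every step `j` on the way.  A stopped process
stays where it is.
-/

namespace Vale.Agent.P046

open Finset

variable {n : ℕ}

/-- One step of the process. -/
noncomputable def step (g : Finset (Finset (Fin n)) → ℝ) (E : Finset (Finset (Fin n))) : ℝ :=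
  if (triangles E).card = 0 then g E
  else (∑ t ∈ triangles E, g (E \ sides t)) / (triangles E).card

open Classical in
/-- Expectation of `f` after `i` steps from `E` at time `k`, on the event that the states met are
good. -/
noncomputable def EX (Good : ℕ → Finset (Finset (Fin n)) → Prop) : ℕ → ℕ →
    Finset (Finset (Fin n)) → (Finset (Finset (Fin n)) → ℝ) → ℝ
  | k, 0, E, f => if Good k E then f E else 0
  | k, i + 1, E, f => if Good k E then step (fun F => EX Good (k + 1) i F f) E else 0

theorem step_mono {g h : Finset (Finset (Fin n)) → ℝ} {E : Finset (Finset (Fin n))}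
    (hgh : ∀ F, F ⊆ E → g F ≤ h F) : step g E ≤ step h E := by
  unfold step
  split_ifs
  · exact hgh E subset_rfl
  · exact div_le_div_of_nonneg_right (sum_le_sum fun t _ => hgh _ sdiff_subset) (by positivity)

theorem step_add (g h : Finset (Finset (Fin n)) → ℝ) (E : Finset (Finset (Fin n))) :
    step (fun F => g F + h F) E = step g E + step h E := by
  unfold step
  split_ifs
  · rfl
  · rw [sum_add_distrib, add_div]

theorem step_mul (c : ℝ) (g : Finset (Finset (Fin n)) → ℝ) (E : Finset (Finset (Fin n))) :
    step (fun F => c * g F) E = c * step g E := by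
  unfold step
  split_ifs
  · rfl
  · rw [← mul_sum, mul_div_assoc]

theorem step_const (c : ℝ) (E : Finset (Finset (Fin n))) : step (fun _ => c) E = c := by
  unfold step
  split_ifs with h
  · rfl
  · rw [sum_const, nsmul_eq_mul, mul_div_cancel_left₀ _ (Nat.cast_ne_zero.2 h)]

variable {Good : ℕ → Finset (Finset (Fin n)) → Prop}

theorem EX_add (f g : Finset (Finset (Fin n)) → ℝ) : ∀ (i k : ℕ) (E : Finset (Finset (Fin n))),
    EX Good k i E (fun F => f F + g F) = EX Good k i E f + EX Good k i E g
  | 0, k, E => by simp only [EX]; split_ifs <;> simp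
  | i + 1, k, E => by
    simp only [EX]
    split_ifs
    · rw [← step_add]
      congr 1
      funext F
      exact EX_add f g i (k + 1) F
    · simp

theorem EX_mul (c : ℝ) (f : Finset (Finset (Fin n)) → ℝ) : ∀ (i k : ℕ) (E : Finset (Finset (Fin n))),
    EX Good k i E (fun F => c * f F) = c * EX Good k i E f
  | 0, k, E => by simp only [EX]; split_ifs <;> simp
  | i + 1, k, E => by
    simp only [EX]
    split_ifs
    · rw [← step_mul]
      congr 1
      funext F
      exact EX_mul c f i (k + 1) F
    · simp

theorem EX_zero (i k : ℕ) (E : Finset (Finset (Fin n))) : EX Good k i E (fun _ => 0) = 0 := by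
  simpa using EX_mul (Good := Good) 0 (fun _ => (0 : ℝ)) i k E

theorem EX_sum {ι : Type*} (s : Finset ι) (f : ι → Finset (Finset (Fin n)) → ℝ) (i k : ℕ)
    (E : Finset (Finset (Fin n))) :
    EX Good k i E (fun F => ∑ a ∈ s, f a F) = ∑ a ∈ s, EX Good k i E (f a) := by
  classical
  induction s using Finset.induction_on with
  | empty => simpa using EX_zero i k E
  | insert a s ha ih =>
    simp only [sum_insert ha]
    rw [EX_add (f a) fun F => ∑ b ∈ s, f b F, ih]

/-- Monotone in the function, compared only on the states that can be met. -/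
theorem EX_mono {f g : Finset (Finset (Fin n)) → ℝ} : ∀ (i k : ℕ) (E : Finset (Finset (Fin n))),
    (∀ F, F ⊆ E → Good (k + i) F → f F ≤ g F) → EX Good k i E f ≤ EX Good k i E g
  | 0, k, E, h => by
    simp only [EX]
    split_ifs with hg
    · exact h E subset_rfl hg
    · rfl
  | i + 1, k, E, h => by
    simp only [EX]
    split_ifs
    · exact step_mono fun F hF => EX_mono i (k + 1) F fun F' hF' hg =>
        h F' (hF'.trans hF) (by rwa [add_right_comm] at hg)
    · rfl

theorem EX_nonneg {f : Finset (Finset (Fin n)) → ℝ} (hf : ∀ F, 0 ≤ f F) (i k : ℕ)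
    (E : Finset (Finset (Fin n))) : 0 ≤ EX Good k i E f :=
  (EX_zero (Good := Good) i k E).symm.le.trans (EX_mono i k E fun F _ _ => hf F)

/-- The expectation is a sum against weights. -/
theorem EX_eq_sum (f : Finset (Finset (Fin n)) → ℝ) (i k : ℕ) (E : Finset (Finset (Fin n))) :
    EX Good k i E f = ∑ F : Finset (Finset (Fin n)),
      EX Good k i E (fun G => if G = F then 1 else 0) * f F := by
  classical
  have h : (fun G => ∑ F : Finset (Finset (Fin n)), f F * (if G = F then (1 : ℝ) else 0)) = f := by
    funext G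
    simp
  conv_lhs => rw [← h]
  rw [EX_sum]
  exact sum_congr rfl fun F _ => by rw [EX_mul, mul_comm]

/-- Without a restriction the expectation of a constant is the constant. -/
theorem EX_true_const (c : ℝ) : ∀ (i k : ℕ) (E : Finset (Finset (Fin n))),
    EX (fun _ _ => True) k i E (fun _ => c) = c
  | 0, k, E => by simp [EX]
  | i + 1, k, E => by
    simp only [EX, if_true, EX_true_const c i]
    exact step_const c E

/-- Restricting to more events lowers the expectation of a non-negative function. -/
theorem EX_mono_good {Good' : ℕ → Finset (Finset (Fin n)) → Prop}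
    (h : ∀ j F, Good j F → Good' j F) {f : Finset (Finset (Fin n)) → ℝ} (hf : ∀ F, 0 ≤ f F) :
    ∀ (i k : ℕ) (E : Finset (Finset (Fin n))), EX Good k i E f ≤ EX Good' k i E f
  | 0, k, E => by
    simp only [EX]
    split_ifs with h1 h2 h2
    · rfl
    · exact absurd (h k E h1) h2
    · exact hf E
    · rfl
  | i + 1, k, E => by
    by_cases h1 : Good k E
    · simp only [EX, if_pos h1, if_pos (h k E h1)]
      exact step_mono fun F _ => EX_mono_good h hf i (k + 1) F
    · refine le_of_eq_of_le (show EX Good k (i + 1) E f = 0 by simp [EX, h1]) ?_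
      exact EX_nonneg hf _ _ _

/-- The Markov property. -/
theorem EX_EX (f : Finset (Finset (Fin n)) → ℝ) (j : ℕ) : ∀ (i k : ℕ) (E : Finset (Finset (Fin n))),
    EX Good k (i + j) E f = EX Good k i E (fun F => EX Good (k + i) j F f)
  | 0, k, E => by
    simp only [EX, zero_add, add_zero]
    split_ifs with h
    · rfl
    · cases j <;> simp [EX, h]
  | i + 1, k, E => by
    rw [add_right_comm i 1 j]
    simp only [EX]
    split_ifs
    · congr 1
      funext F
      rw [EX_EX f j i (k + 1) F]
      rw [show k + 1 + i = k + (i + 1) by omega]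
    · rfl

/-- A fixed set of `s` edges of codegree at least `a` is met by at least `s a - s ^ 2` triangles. -/
theorem hits_ge (E S : Finset (Finset (Fin n))) {a : ℝ}
    (hd : ∀ e ∈ S, a ≤ ((triangles E).filter fun t => e ∈ sides t).card) :
    (S.card : ℝ) * a - (S.card : ℝ) ^ 2 ≤
      (((triangles E).filter fun t => ¬ Disjoint (sides t) S).card : ℝ) := by
  classical
  set T := triangles E
  have h1 : ∑ e ∈ S, ((T.filter fun t => e ∈ sides t).card : ℕ) =
      ∑ t ∈ T, (sides t ∩ S).card := by
    simp only [card_filter]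
    rw [sum_comm]
    refine sum_congr rfl fun t _ => ?_
    rw [← card_filter]
    congr 1
    ext e
    simp [and_comm]
  have h2 : ∀ t ∈ T, (sides t ∩ S).card ≤
      (if ¬ Disjoint (sides t) S then 1 else 0) + (sides t ∩ S).offDiag.card := by
    intro t _
    rcases Nat.eq_zero_or_pos (sides t ∩ S).card with h | h
    · omega
    · have hne : ¬ Disjoint (sides t) S := fun hd' => by
        rw [disjoint_iff_inter_eq_empty] at hd'
        simp [hd'] at h
      rw [if_pos hne, offDiag_card]
      rcases Nat.lt_or_ge (sides t ∩ S).card 2 with h' | h'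
      · omega
      · have := Nat.mul_le_mul_right (sides t ∩ S).card h'
        omega
  have h3 : ∑ t ∈ T, (sides t ∩ S).offDiag.card ≤ S.card ^ 2 := by
    rw [← card_biUnion]
    · calc (T.biUnion fun t => (sides t ∩ S).offDiag).card ≤ S.offDiag.card :=
            card_le_card (biUnion_subset.2 fun t _ => offDiag_mono inter_subset_right)
        _ ≤ S.card ^ 2 := by rw [offDiag_card, sq]; omega
    · intro t ht u hu htu
      rw [Function.onFun, disjoint_left]
      intro p hp hq
      simp only [mem_offDiag, mem_inter] at hp hq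
      exact hp.2.2 (card_le_one.1 (common_sides ht hu htu) _ (mem_inter.2 ⟨hp.1.1, hq.1.1⟩)
        _ (mem_inter.2 ⟨hp.2.1.1, hq.2.1.1⟩))
  have h4 : ∑ t ∈ T, (sides t ∩ S).card ≤
      (T.filter fun t => ¬ Disjoint (sides t) S).card + S.card ^ 2 :=
    calc ∑ t ∈ T, (sides t ∩ S).card
        ≤ ∑ t ∈ T, ((if ¬ Disjoint (sides t) S then 1 else 0) + (sides t ∩ S).offDiag.card) :=
          sum_le_sum h2
      _ ≤ _ := by rw [sum_add_distrib, ← card_filter]; omega
  have h5 : (S.card : ℝ) * a ≤ ((∑ e ∈ S, (T.filter fun t => e ∈ sides t).card : ℕ) : ℝ) := by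
    push_cast
    have := card_nsmul_le_sum S _ a hd
    rwa [nsmul_eq_mul] at this
  rw [h1] at h5
  have h6 := (Nat.cast_le (α := ℝ)).2 h4
  push_cast at h6 h5
  linarith

/-- One step: the probability that `S` stays present. -/
theorem step_present (E S : Finset (Finset (Fin n))) (hS : S ⊆ E) {a q : ℝ}
    (hd : ∀ e ∈ S, a ≤ ((triangles E).filter fun t => e ∈ sides t).card)
    (hq : ((triangles E).card : ℝ) ≤ q) :
    step (fun F => if S ⊆ F then 1 else 0) E ≤
      Real.exp (-(((S.card : ℝ) * a - (S.card : ℝ) ^ 2) / q)) := by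
  classical
  set s : ℝ := (S.card : ℝ)
  set x := (s * a - s ^ 2) / q
  set hit := ((triangles E).filter fun t => ¬ Disjoint (sides t) S).card
  set Q := (triangles E).card
  have hits := hits_ge E S hd
  have hhit : hit ≤ Q := card_filter_le _ _
  by_cases hQ : Q = 0
  · have hneg : s * a - s ^ 2 ≤ 0 := by
      have h0 : hit = 0 := by omega
      simpa [s, hit, h0] using hits
    have hx : x ≤ 0 := div_nonpos_of_nonpos_of_nonneg hneg
      ((Nat.cast_nonneg Q).trans hq)
    simp only [step, hQ, if_true, if_pos hS, Q] at *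
    calc (1 : ℝ) ≤ -x + 1 := by linarith
      _ ≤ Real.exp (-x) := Real.add_one_le_exp _
  have hsum : (∑ t ∈ triangles E, if S ⊆ E \ sides t then (1 : ℝ) else 0) = (Q : ℝ) - hit := by
    rw [sum_boole, eq_sub_iff_add_eq, ← Nat.cast_add]
    congr 1
    refine Eq.trans ?_ (card_filter_add_card_filter_not (s := triangles E)
      (fun t => Disjoint (sides t) S))
    congr 2
    ext t
    simp [subset_sdiff, hS, disjoint_comm]
  have hQ0 : (0 : ℝ) < Q := Nat.cast_pos.2 (Nat.pos_of_ne_zero hQ)
  have hmain : step (fun F => if S ⊆ F then (1 : ℝ) else 0) E = 1 - (hit : ℝ) / Q := by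
    rw [step, if_neg hQ, hsum, sub_div, div_self hQ0.ne']
  rw [hmain]
  have hxle : x ≤ (hit : ℝ) / Q := by
    rcases le_or_gt (s * a - s ^ 2) 0 with h | h
    · exact (div_nonpos_of_nonpos_of_nonneg h (hQ0.le.trans hq)).trans (by positivity)
    · calc x ≤ (hit : ℝ) / q := div_le_div_of_nonneg_right hits (hQ0.le.trans hq)
        _ ≤ (hit : ℝ) / Q := div_le_div_of_nonneg_left (Nat.cast_nonneg _) hQ0 hq
  calc 1 - (hit : ℝ) / Q ≤ -x + 1 := by linarith
    _ ≤ Real.exp (-x) := Real.add_one_le_exp _

/-- While the process is good, `S` is present with probability at most the product of the one step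
bounds. -/
theorem EX_present_le (S : Finset (Finset (Fin n))) {a q : ℕ → ℝ}
    (hgood : ∀ j F, Good j F → ((triangles F).card : ℝ) ≤ q j ∧
      ∀ e ∈ S, e ∈ F → a j ≤ ((triangles F).filter fun t => e ∈ sides t).card) :
    ∀ (i k : ℕ) (E : Finset (Finset (Fin n))),
      EX Good k i E (fun F => if S ⊆ F then 1 else 0) ≤
        (if S ⊆ E then 1 else 0) *
          Real.exp (-∑ j ∈ range i, ((S.card : ℝ) * a (k + j) - (S.card : ℝ) ^ 2) / q (k + j))
  | 0, k, E => by
    simp only [EX, range_zero, sum_empty, neg_zero, Real.exp_zero, mul_one]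
    split_ifs <;> simp
  | i + 1, k, E => by
    classical
    set P := Real.exp (-∑ j ∈ range i,
      ((S.card : ℝ) * a (k + 1 + j) - (S.card : ℝ) ^ 2) / q (k + 1 + j)) with hP
    simp only [EX]
    split_ifs with hg hS hS
    · refine (step_mono fun F _ => EX_present_le S hgood i (k + 1) F).trans ?_
      rw [← hP, show (fun F => (if S ⊆ F then (1 : ℝ) else 0) * P) =
        fun F => P * (if S ⊆ F then (1 : ℝ) else 0) from funext fun F => mul_comm _ _, step_mul]
      have h1 := step_present E S hS (fun e he => (hgood k E hg).2 e he (hS he)) (hgood k E hg).1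
      refine (mul_le_mul_of_nonneg_left h1 (Real.exp_pos _).le).trans (le_of_eq ?_)
      rw [one_mul, ← Real.exp_add, sum_range_succ' _ i]
      congr 1
      rw [add_zero, neg_add]
      congr 2
      exact sum_congr rfl fun j _ => by rw [show k + (j + 1) = k + 1 + j by omega]
    · rw [zero_mul]
      refine le_of_le_of_eq (step_mono (h := fun _ => (0 : ℝ)) fun F hF => ?_) (step_const 0 E)
      refine (EX_present_le S hgood i (k + 1) F).trans (le_of_eq ?_)
      rw [if_neg (fun h => hS (h.trans hF)), zero_mul]
    · positivity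
    · simp

/-- The sum of `3 / m` over an arithmetic progression is at least the logarithm of the ratio,
minus one. -/
theorem exp_harmonic_le (m₀ : ℕ) : ∀ i : ℕ, 3 * i + 3 ≤ m₀ →
    Real.exp (-∑ j ∈ range i, 3 / ((m₀ : ℝ) - 3 * j)) ≤
      Real.exp (3 / ((m₀ : ℝ) - 3 * i)) * (((m₀ : ℝ) - 3 * i) / m₀) := by
  intro i
  induction i with
  | zero =>
    intro h
    have hm : (0 : ℝ) < m₀ := Nat.cast_pos.2 (by omega)
    simp only [range_zero, sum_empty, neg_zero, Real.exp_zero, Nat.cast_zero, mul_zero, sub_zero,
      div_self hm.ne', mul_one]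
    exact Real.one_le_exp (by positivity)
  | succ i ih =>
    intro h
    have hi : (3 : ℝ) * i + 6 ≤ m₀ := by exact_mod_cast (show 3 * i + 6 ≤ m₀ by omega)
    rw [sum_range_succ, neg_add, Real.exp_add]
    refine (mul_le_mul_of_nonneg_right (ih (by omega)) (Real.exp_pos _).le).trans ?_
    set y := (m₀ : ℝ) - 3 * i with hy
    have hy' : (m₀ : ℝ) - 3 * ((i + 1 : ℕ) : ℝ) = y - 3 := by push_cast; rw [hy]; ring
    rw [hy']
    have hm : (0 : ℝ) < m₀ := Nat.cast_pos.2 (by omega)
    have hy3 : 0 < y - 3 := by linarith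
    calc Real.exp (3 / y) * (y / m₀) * Real.exp (-(3 / y)) = y / m₀ := by
          rw [mul_right_comm, ← Real.exp_add, add_neg_cancel, Real.exp_zero, one_mul]
      _ = (1 + 3 / (y - 3)) * ((y - 3) / m₀) := by field_simp; ring
      _ ≤ Real.exp (3 / (y - 3)) * ((y - 3) / m₀) := by
          gcongr
          linarith [Real.add_one_le_exp (3 / (y - 3))]

/-- The upper tool: while the codegrees are at least `3 (1 - ε j) / m` times the number of triangles,
`m` the number of edges, a fixed edge set is present with probability at most `(C p) ^ #S`. -/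
theorem EX_present_pow_le (S : Finset (Finset (Fin n))) {a q ε : ℕ → ℝ} {m₀ i : ℕ}
    (E : Finset (Finset (Fin n)))
    (hgood : ∀ j F, Good j F → ((triangles F).card : ℝ) ≤ q j ∧
      ∀ e ∈ S, e ∈ F → a j ≤ ((triangles F).filter fun t => e ∈ sides t).card)
    (hm : 3 * i + 3 ≤ m₀)
    (haq : ∀ j, j < i → 3 * (1 - ε j) / ((m₀ : ℝ) - 3 * j) ≤ (a j - S.card) / q j) :
    EX Good 0 i E (fun F => if S ⊆ F then 1 else 0) ≤
      (Real.exp (3 / ((m₀ : ℝ) - 3 * i) + ∑ j ∈ range i, 3 * ε j / ((m₀ : ℝ) - 3 * j)) *
        (((m₀ : ℝ) - 3 * i) / m₀)) ^ S.card := by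
  classical
  refine (EX_present_le S hgood i 0 E).trans ?_
  set x := ∑ j ∈ range i, (a j - S.card) / q j
  have e1 : (∑ j ∈ range i, ((S.card : ℝ) * a (0 + j) - (S.card : ℝ) ^ 2) / q (0 + j)) =
      (S.card : ℝ) * x := by
    rw [mul_sum]
    exact sum_congr rfl fun j _ => by rw [zero_add]; ring
  rw [e1]
  refine (mul_le_of_le_one_left (Real.exp_pos _).le (by split_ifs <;> norm_num)).trans ?_
  rw [show -((S.card : ℝ) * x) = (S.card : ℝ) * -x by ring, Real.exp_nat_mul]
  refine pow_le_pow_left₀ (Real.exp_pos _).le ?_ _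
  have hx : (∑ j ∈ range i, 3 / ((m₀ : ℝ) - 3 * j)) -
      (∑ j ∈ range i, 3 * ε j / ((m₀ : ℝ) - 3 * j)) ≤ x := by
    rw [← sum_sub_distrib]
    refine sum_le_sum fun j hj => le_of_eq_of_le ?_ (haq j (mem_range.1 hj))
    ring
  calc Real.exp (-x)
      ≤ Real.exp ((∑ j ∈ range i, 3 * ε j / ((m₀ : ℝ) - 3 * j)) +
          -∑ j ∈ range i, 3 / ((m₀ : ℝ) - 3 * j)) := Real.exp_le_exp.2 (by linarith)
    _ ≤ _ := by
        rw [Real.exp_add, Real.exp_add]
        have h := mul_le_mul_of_nonneg_left (exp_harmonic_le m₀ i hm)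
          (Real.exp_pos (∑ j ∈ range i, 3 * ε j / ((m₀ : ℝ) - 3 * j))).le
        refine h.trans (le_of_eq ?_)
        ring

end Vale.Agent.P046
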