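import Vale.Agent.P046.Chain
import Vale.Agent.P046.Present

/-!
`Present.EX` and `Chain.killed` are the same object: `EX` also requires `Good` at the final time.
-/

namespace Vale.Agent.P046.Chain

variable {n : ℕ}

lemma step_eq_avg (f : St n → ℝ) (E : St n) : step f E = avg f E := by
  simp only [step, avg, Finset.card_eq_zero]

open Classical in
lemma EX_eq_killed (Good : ℕ → St n → Prop) (f : St n → ℝ) :
    ∀ (i k : ℕ) (E : St n),
      EX Good k i E f = killed Good i (fun a F => if Good a F then f F else 0) k E
  | 0, k, E => by simp [EX]
  | i + 1, k, E => by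
    by_cases hg : Good k E
    · rw [killed_succ_of_good hg, EX, if_pos hg, step_eq_avg]
      exact avg_congr fun F _ => EX_eq_killed Good f i (k + 1) F
    · rw [killed_succ_of_not_good hg, EX, if_neg hg]

lemma EX_true_eq_expect (f : St n → ℝ) (i k : ℕ) (E : St n) :
    EX (fun _ _ => True) k i E f = expect i (fun _ F => f F) k E := by
  rw [EX_eq_killed]
  simp [expect]

end Vale.Agent.P046.Chain
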