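import Vale.Agent.P046.FlagDrift

/-!
Exact one-step changes of a codegree and of the number of triangles.
-/

namespace Vale.Agent.P046.Codeg

open Finset Chain

variable {n : ℕ}

/-- The triangles through `e`. -/
def star (E : St n) (e : Finset (Fin n)) : Finset (Finset (Fin n)) :=
  (triangles E).filter fun u => e ∈ sides u

lemma deg_eq (E : St n) (e : Finset (Fin n)) : deg E e = (star E e).card := rfl

lemma star_pos {E : St n} {e t : Finset (Fin n)} (ht : t ∈ triangles E) (he : e ∈ sides t) :
    1 ≤ deg E e :=
  card_pos.2 ⟨t, mem_filter.2 ⟨ht, he⟩⟩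

/-- The triangles at `e` lost when `t` is removed. -/
def loss (E : St n) (e : Finset (Fin n)) (t : Finset (Fin n)) : ℕ :=
  ((star E e).filter fun u => ¬ Disjoint (sides u) (sides t)).card

lemma deg_sdiff (E : St n) (e : Finset (Fin n)) (t : Finset (Fin n)) :
    deg (E \ sides t) e + loss E e t = deg E e := by
  rw [loss, deg_eq, deg_eq, star, triangles_sdiff, filter_comm, star]
  exact card_filter_add_card_filter_not _

/-- A step not killing `e` lowers its codegree by at most three. -/
lemma loss_le_three {E : St n} {e : Finset (Fin n)} {t : Finset (Fin n)} (ht : t ∈ triangles E)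
    (he : e ∉ sides t) : loss E e t ≤ 3 := by
  have hsub : (star E e).filter (fun u => ¬ Disjoint (sides u) (sides t)) ⊆
      (sides t).biUnion fun f => (triangles E).filter fun u => e ∈ sides u ∧ f ∈ sides u := by
    intro u hu
    obtain ⟨h1, h2⟩ := mem_filter.1 hu
    obtain ⟨f, hfu, hft⟩ := not_disjoint_iff.1 h2
    exact mem_biUnion.2 ⟨f, hft, mem_filter.2 ⟨(mem_filter.1 h1).1, (mem_filter.1 h1).2, hfu⟩⟩
  refine ((card_le_card hsub).trans card_biUnion_le).trans ?_
  refine (sum_le_sum (g := fun _ => 1) fun f hf => ?_).trans (by simp [card_sides ht])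
  exact FlagDrift.pair_card_le_one E fun h => he (h ▸ hf)

/-- Meeting the triangle `u` away from `e` is containing exactly one of its other two edges. -/
lemma meet_eq_sum {E : St n} {e u t : Finset (Fin n)} (hu : u ∈ triangles E)
    (ht : t ∈ triangles E) (heu : e ∈ sides u) (het : e ∉ sides t) :
    (if Disjoint (sides u) (sides t) then 0 else 1) =
      ((sides u).erase e |>.filter fun f => f ∈ sides t).card := by
  have htu : u ≠ t := fun h => het (h ▸ heu)
  have hle := common_sides hu ht htu
  have hEq : ((sides u).erase e).filter (fun f => f ∈ sides t) = sides u ∩ sides t := by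
    ext f
    simp only [mem_filter, mem_erase, mem_inter]
    exact ⟨fun h => ⟨h.1.2, h.2⟩, fun h => ⟨⟨fun hfe => het (hfe ▸ h.2), h.1⟩, h.2⟩⟩
  rw [hEq]
  split_ifs with h
  · exact (card_eq_zero.2 (disjoint_iff_inter_eq_empty.1 h)).symm
  · have : 0 < (sides u ∩ sides t).card :=
      card_pos.2 (nonempty_iff_ne_empty.2 fun h0 => h (disjoint_iff_inter_eq_empty.2 h0))
    omega

/-- Exact total loss of the codegree of `e` over the steps keeping `e`: each triangle at `e` is
killed by the other triangles at its other two edges. -/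
theorem sum_loss (E : St n) (e : Finset (Fin n)) :
    ∑ t ∈ (triangles E).filter (fun t => e ∉ sides t), (loss E e t : ℝ) =
      ∑ u ∈ star E e, ∑ f ∈ (sides u).erase e, ((deg E f : ℝ) - 1) := by
  set T := (triangles E).filter fun t => e ∉ sides t with hT
  have h1 : ∑ t ∈ T, loss E e t = ∑ u ∈ star E e, ∑ f ∈ (sides u).erase e,
      (T.filter fun t => f ∈ sides t).card := by
    simp_rw [loss, card_filter]
    rw [sum_comm]
    refine sum_congr rfl fun u hu => ?_
    rw [eq_comm, sum_comm]
    refine sum_congr rfl fun t ht => ?_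
    rw [ite_not]
    rw [meet_eq_sum (mem_filter.1 hu).1 (mem_filter.1 ht).1 (mem_filter.1 hu).2
      (mem_filter.1 ht).2, card_filter]
  have h2 : ∀ u ∈ star E e, ∀ f ∈ (sides u).erase e,
      (T.filter fun t => f ∈ sides t).card + 1 = deg E f := by
    intro u hu f hf
    obtain ⟨huT, heu⟩ := mem_filter.1 hu
    obtain ⟨hfe, hfu⟩ := mem_erase.1 hf
    have hsplit : (T.filter fun t => f ∈ sides t) =
        (star E f).filter fun t => ¬ e ∈ sides t := by
      rw [hT, star, filter_comm]
    have hone : ((star E f).filter fun t => e ∈ sides t).card = 1 := by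
      refine le_antisymm ?_ (card_pos.2 ⟨u, mem_filter.2 ⟨mem_filter.2 ⟨huT, hfu⟩, heu⟩⟩)
      rw [star, filter_filter]
      exact FlagDrift.pair_card_le_one E hfe
    rw [hsplit, deg_eq, ← card_filter_add_card_filter_not (s := star E f) (fun t => e ∈ sides t),
      hone, Nat.add_comm]
  have h3 := congrArg (Nat.cast : ℕ → ℝ) h1
  push_cast at h3
  rw [h3]
  refine sum_congr rfl fun u hu => sum_congr rfl fun f hf => ?_
  rw [← h2 u hu f hf]
  push_cast
  ring

/-- The exact drift of the codegree of a living edge. -/
theorem avg_deg_change (E : St n) (e : Finset (Fin n)) (he : e ∈ E) (hne : triangles E ≠ ∅) :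
    avg (fun F => if e ∈ F then (deg F e : ℝ) - deg E e else 0) E =
      -(∑ u ∈ star E e, ∑ f ∈ (sides u).erase e, ((deg E f : ℝ) - 1)) / (triangles E).card := by
  rw [← sum_loss, ← sum_neg_distrib, sum_filter]
  unfold avg
  rw [if_neg hne]
  congr 1
  refine sum_congr rfl fun t _ => ?_
  beta_reduce
  by_cases h : e ∈ sides t
  · rw [if_neg (fun hm => (mem_sdiff.1 hm).2 h), if_neg (not_not.2 h)]
  · rw [if_pos (mem_sdiff.2 ⟨he, h⟩), if_pos h, ← deg_sdiff E e t]
    push_cast
    ring

/-- Every step keeping `e` changes its codegree by at most three. -/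
theorem abs_deg_change_le {E F : St n} {e : Finset (Fin n)} (h : Succ E F) (he : e ∈ F) :
    |(deg F e : ℝ) - deg E e| ≤ 3 := by
  rcases h with ⟨rfl, _⟩ | ⟨t, ht, rfl⟩
  · simp
  · have h3 : (loss E e t : ℝ) ≤ 3 := by exact_mod_cast loss_le_three ht (mem_sdiff.1 he).2
    rw [← deg_sdiff E e t]
    push_cast
    rw [abs_le]
    constructor <;> linarith [(Nat.cast_nonneg (loss E e t) : (0 : ℝ) ≤ _)]

/-- The second moment of the change is at most three times the mean loss. -/
theorem avg_deg_change_sq (E : St n) (e : Finset (Fin n)) (he : e ∈ E) (hne : triangles E ≠ ∅) :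
    avg (fun F => if e ∈ F then ((deg F e : ℝ) - deg E e) ^ 2 else 0) E ≤
      3 * (∑ u ∈ star E e, ∑ f ∈ (sides u).erase e, ((deg E f : ℝ) - 1)) / (triangles E).card := by
  have h := avg_deg_change E e he hne
  rw [neg_div] at h
  rw [mul_div_assoc, show ∀ x : ℝ, 3 * x = (-3) * -x from fun x => by ring, ← h, ← avg_mul]
  refine avg_mono fun F hF => ?_
  by_cases heF : e ∈ F
  · simp only [if_pos heF]
    have h1 := abs_deg_change_le hF heF
    have h2 : (deg F e : ℝ) ≤ deg E e := by
      rcases hF with ⟨rfl, _⟩ | ⟨t, _, rfl⟩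
      · exact le_rfl
      · exact_mod_cast Nat.le.intro (deg_sdiff E e t)
    rw [abs_le] at h1
    nlinarith
  · simp only [if_neg heF]
    simp

/-- A living edge survives a step with probability `1 - deg/Q`. -/
theorem avg_alive (E : St n) (e : Finset (Fin n)) (he : e ∈ E) (hne : triangles E ≠ ∅) :
    avg (fun F => if e ∈ F then 1 else 0) E =
      1 - (deg E e : ℝ) / (triangles E).card := by
  classical
  have h := avg_survive E {e} (singleton_subset_iff.2 he) hne
  simp only [singleton_subset_iff] at h
  convert h using 3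
  rw [deg_eq, star]
  norm_cast
  congr 1
  exact filter_congr fun t _ => by simp

/-- Removing `t` kills exactly `deg f + deg g + deg h - 2` triangles. -/
theorem card_triangles_sdiff {E : St n} {t : Finset (Fin n)} (ht : t ∈ triangles E) :
    ((triangles (E \ sides t)).card : ℝ) =
      (triangles E).card - ((∑ f ∈ sides t, (deg E f : ℝ)) - 2) := by
  have h1 : ((triangles E).filter fun u => Disjoint (sides u) (sides t)).card +
      ((triangles E).filter fun u => ¬ Disjoint (sides u) (sides t)).card = (triangles E).card :=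
    card_filter_add_card_filter_not _
  have h2 : ∀ u ∈ triangles E, (if Disjoint (sides u) (sides t) then 0 else 1) +
      (if u = t then 2 else 0) = ((sides t).filter fun f => f ∈ sides u).card := by
    intro u hu
    rw [filter_mem_eq_inter]
    by_cases hut : u = t
    · subst hut
      have hd : ¬ Disjoint (sides u) (sides u) := by
        rw [disjoint_self, Finset.bot_eq_empty, ← card_eq_zero, card_sides hu]
        omega
      rw [if_neg hd, if_pos rfl, inter_self, card_sides hu]
    · have hle := common_sides hu ht hut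
      rw [if_neg hut, inter_comm]
      split_ifs with hd
      · simp [disjoint_iff_inter_eq_empty.1 hd]
      · have : 0 < (sides u ∩ sides t).card :=
          card_pos.2 (nonempty_iff_ne_empty.2 fun h0 => hd (disjoint_iff_inter_eq_empty.2 h0))
        omega
  have h3 := sum_congr rfl h2
  rw [sum_add_distrib, sum_ite_eq', if_pos ht] at h3
  have h4 : ∑ u ∈ triangles E, ((sides t).filter fun f => f ∈ sides u).card =
      ∑ f ∈ sides t, deg E f := by
    simp_rw [deg, card_filter]
    exact sum_comm
  have h5 : ∑ u ∈ triangles E, (if Disjoint (sides u) (sides t) then 0 else 1) =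
      ((triangles E).filter fun u => ¬ Disjoint (sides u) (sides t)).card := by
    simp_rw [card_filter, ite_not]
  rw [h4, h5] at h3
  rw [triangles_sdiff]
  have h6 := congrArg (Nat.cast : ℕ → ℝ) h3
  have h7 := congrArg (Nat.cast : ℕ → ℝ) h1
  push_cast at h6 h7
  linarith

/-- The sum of the codegrees is three times the number of triangles. -/
theorem sum_deg (E : St n) : ∑ e ∈ E, (deg E e : ℝ) = 3 * (triangles E).card := by
  have h : ∑ e ∈ E, deg E e = 3 * (triangles E).card := by
    simp_rw [deg, card_filter]
    rw [sum_comm, sum_congr rfl (g := fun _ => 3) fun t ht => ?_, sum_const, smul_eq_mul, mul_comm]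
    rw [← card_filter, filter_mem_eq_inter,
      inter_eq_right.2 (mem_filter.1 ht).2, card_sides ht]
  exact_mod_cast h

/-- The exact drift of the number of triangles: `-(sum of squared codegrees)/Q + 2`. -/
theorem avg_triangles_change (E : St n) (hne : triangles E ≠ ∅) :
    avg (fun F => ((triangles F).card : ℝ) - (triangles E).card) E =
      2 - (∑ e ∈ E, (deg E e : ℝ) ^ 2) / (triangles E).card := by
  have hpos : ((triangles E).card : ℝ) ≠ 0 := by
    exact_mod_cast (card_pos.2 (nonempty_iff_ne_empty.2 hne)).ne'
  unfold avg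
  rw [if_neg hne]
  have h1 : ∀ t ∈ triangles E, ((triangles (E \ sides t)).card : ℝ) - (triangles E).card =
      2 - ∑ f ∈ E, if f ∈ sides t then (deg E f : ℝ) else 0 := by
    intro t ht
    rw [card_triangles_sdiff ht, ← sum_filter, filter_mem_eq_inter,
      inter_eq_right.2 (mem_filter.1 ht).2]
    ring
  rw [sum_congr rfl h1, sum_sub_distrib, sum_comm, sum_const, nsmul_eq_mul]
  have h2 : ∀ f ∈ E, ∑ t ∈ triangles E, (if f ∈ sides t then (deg E f : ℝ) else 0) =
      (deg E f : ℝ) ^ 2 := by
    intro f _
    rw [← sum_filter, sum_const, nsmul_eq_mul, deg]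
    ring
  rw [sum_congr rfl h2]
  field_simp

end Vale.Agent.P046.Codeg
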