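import Mathlib

/-!
# Moments of rooted extension counts under an upper-tool hypothesis

Vertices are `Fin n`, a (hyper)edge is a `Finset (Fin n)` and `E ω` is the edge set of outcome `ω`
(weights `w`). If every bounded set `S` of non-root edges is present with weight at most
`A * q ^ #S`, then the `r`-th moment of the number of rooted copies of a fixed pattern is at most
`A * (C * M) ^ r`, where `M` bounds `n ^ #K * q ^ #(pattern edges meeting K)` over all sets `K` of
free pattern vertices and `C` depends only on the pattern and `r`.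
-/

set_option linter.unusedSectionVars false

namespace Vale.Agent.P046.Extension

open Finset

variable {n : ℕ} {V R Ω : Type*} [Fintype V] [DecidableEq V] [Fintype R] [DecidableEq R]

/-- Admissible placements of the free vertices: injective and avoiding the roots. -/
noncomputable def placements (ρ : R → Fin n) : Finset (V → Fin n) :=
  (Finset.univ : Finset (V → Fin n)).filter (fun φ => Function.Injective (Sum.elim φ ρ))

/-- The edges of the copy given by the placement `φ`. -/
def image (ρ : R → Fin n) (H : Finset (Finset (V ⊕ R))) (φ : V → Fin n) :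
    Finset (Finset (Fin n)) :=
  H.image (fun e => e.image (Sum.elim φ ρ))

/-- The number of rooted copies inside the edge set `E`. -/
noncomputable def count (ρ : R → Fin n) (H : Finset (Finset (V ⊕ R)))
    (E : Finset (Finset (Fin n))) : ℕ :=
  #((placements ρ).filter (fun φ => image ρ H φ ⊆ E))

/-- The pattern edges meeting the set `K` of free vertices. -/
def touching (H : Finset (Finset (V ⊕ R))) (K : Finset V) : Finset (Finset (V ⊕ R)) :=
  H.filter (fun e => ∃ v ∈ K, Sum.inl v ∈ e)

/-- Monotonicity of the count. -/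
lemma count_mono (ρ : R → Fin n) (H : Finset (Finset (V ⊕ R)))
    {E E' : Finset (Finset (Fin n))} (h : E ⊆ E') : count ρ H E ≤ count ρ H E' := by
  apply card_le_card
  intro φ hφ
  simp only [mem_filter] at hφ ⊢
  exact ⟨hφ.1, hφ.2.trans h⟩

/-- An edge of a copy meets some non-root vertex. -/
lemma exists_notMem_root {ρ : R → Fin n} {H : Finset (Finset (V ⊕ R))}
    (hH : ∀ e ∈ H, ∃ v : V, Sum.inl v ∈ e) {φ : V → Fin n} (hφ : φ ∈ placements ρ)
    {f : Finset (Fin n)} (hf : f ∈ image ρ H φ) : ∃ x ∈ f, ∀ s : R, ρ s ≠ x := by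
  simp only [image, mem_image] at hf
  obtain ⟨e, he, rfl⟩ := hf
  obtain ⟨v, hv⟩ := hH e he
  refine ⟨φ v, mem_image.2 ⟨Sum.inl v, hv, rfl⟩, fun s hs => ?_⟩
  have hi : Function.Injective (Sum.elim φ ρ) := (mem_filter.1 hφ).2
  have h1 := @hi (Sum.inr s) (Sum.inl v) (by simpa using hs)
  exact Sum.inr_ne_inl h1

/-- The placements whose set of vertices outside `W` is exactly `K`. -/
lemma card_placements_outside_le (ρ : R → Fin n) (W : Finset (Fin n)) (K : Finset V) :
    #((placements (V := V) ρ).filter (fun φ => univ.filter (fun v => φ v ∉ W) = K)) ≤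
      n ^ #K * (#W + 1) ^ Fintype.card V := by
  classical
  let T : V → Finset (Fin n) := fun v => if v ∈ K then univ else W
  have hsub : (placements (V := V) ρ).filter (fun φ => univ.filter (fun v => φ v ∉ W) = K) ⊆
      Fintype.piFinset T := by
    intro φ hφ
    simp only [mem_filter] at hφ
    rw [Fintype.mem_piFinset]
    intro v
    by_cases hv : v ∈ K
    · simp [T, hv]
    · simp only [T, if_neg hv]
      by_contra hc
      exact hv (hφ.2 ▸ mem_filter.2 ⟨mem_univ v, hc⟩)
  refine (card_le_card hsub).trans ?_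
  rw [Fintype.card_piFinset, ← prod_mul_prod_compl K]
  have h1 : ∏ v ∈ K, #(T v) = n ^ #K := by
    rw [prod_congr rfl (fun v hv => by simp [T, hv] : ∀ v ∈ K, #(T v) = n), prod_const]
  have h2 : ∏ v ∈ Kᶜ, #(T v) ≤ (#W + 1) ^ Fintype.card V := by
    rw [prod_congr rfl (fun v hv => by simp [T, mem_compl.1 hv] : ∀ v ∈ Kᶜ, #(T v) = #W),
      prod_const]
    calc #W ^ #Kᶜ ≤ (#W + 1) ^ #Kᶜ := Nat.pow_le_pow_left (Nat.le_succ _) _
      _ ≤ (#W + 1) ^ Fintype.card V :=
          Nat.pow_le_pow_right (Nat.succ_pos _) (card_le_univ _)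
  rw [h1]
  exact Nat.mul_le_mul_left _ h2

/-- A copy with outside set `K` brings at least `#(touching H K)` edges not inside `W`. -/
lemma card_union_image_ge (ρ : R → Fin n) (H : Finset (Finset (V ⊕ R)))
    (S : Finset (Finset (Fin n))) (W : Finset (Fin n)) (hS : ∀ f ∈ S, f ⊆ W)
    {φ : V → Fin n} (hφ : φ ∈ placements ρ) :
    #S + #(touching H (univ.filter (fun v => φ v ∉ W))) ≤ #(S ∪ image ρ H φ) := by
  classical
  have hi : Function.Injective (Sum.elim φ ρ) := (mem_filter.1 hφ).2
  set K := univ.filter (fun v => φ v ∉ W) with hK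
  set N := (touching H K).image (fun e => e.image (Sum.elim φ ρ)) with hN
  have hcard : #N = #(touching H K) := card_image_of_injective _ (image_injective hi)
  have hdis : Disjoint S N := by
    rw [disjoint_left]
    intro f hfS hfN
    simp only [hN, touching, mem_image, mem_filter] at hfN
    obtain ⟨e, ⟨-, v, hvK, hve⟩, rfl⟩ := hfN
    have h1 : φ v ∈ W := hS _ hfS (mem_image.2 ⟨Sum.inl v, hve, rfl⟩)
    exact (mem_filter.1 hvK).2 h1
  have hsub : S ∪ N ⊆ S ∪ image ρ H φ :=
    union_subset_union le_rfl (image_subset_image (filter_subset _ _))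
  calc #S + #(touching H K) = #(S ∪ N) := by rw [card_union_of_disjoint hdis, hcard]
    _ ≤ _ := card_le_card hsub

/-- The one-copy extension bound. -/
lemma sum_pow_card_union_le (ρ : R → Fin n) (H : Finset (Finset (V ⊕ R)))
    {q M : ℝ} (hq0 : 0 ≤ q) (hq1 : q ≤ 1)
    (hM : ∀ K : Finset V, (n : ℝ) ^ #K * q ^ #(touching H K) ≤ M)
    (S : Finset (Finset (Fin n))) (W : Finset (Fin n)) (hS : ∀ f ∈ S, f ⊆ W)
    {B : ℕ} (hW : #W ≤ B) :
    ∑ φ ∈ placements (V := V) ρ, q ^ #(S ∪ image ρ H φ) ≤
      q ^ #S * ((2 : ℝ) ^ Fintype.card V * ((B : ℝ) + 1) ^ Fintype.card V * M) := by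
  classical
  set v := Fintype.card V with hv
  set Kf : (V → Fin n) → Finset V := fun φ => univ.filter (fun x => φ x ∉ W) with hKf
  rw [← sum_fiberwise_of_maps_to (s := placements (V := V) ρ) (t := (univ : Finset (Finset V)))
    (g := Kf) (fun φ _ => mem_univ _)]
  have hone : ∀ K ∈ (univ : Finset (Finset V)),
      ∑ φ ∈ (placements (V := V) ρ).filter (fun φ => Kf φ = K), q ^ #(S ∪ image ρ H φ) ≤
        q ^ #S * (((B : ℝ) + 1) ^ v * M) := by
    intro K _
    have h1 : ∀ φ ∈ (placements (V := V) ρ).filter (fun φ => Kf φ = K),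
        q ^ #(S ∪ image ρ H φ) ≤ q ^ #S * q ^ #(touching H K) := by
      intro φ hφ
      simp only [mem_filter] at hφ
      rw [← pow_add]
      apply pow_le_pow_of_le_one hq0 hq1
      have := card_union_image_ge ρ H S W hS hφ.1
      rw [← hφ.2]
      exact this
    have hcard : ((#((placements (V := V) ρ).filter (fun φ => Kf φ = K)) : ℕ) : ℝ) ≤
        (n : ℝ) ^ #K * ((B : ℝ) + 1) ^ v := by
      have h := card_placements_outside_le (V := V) ρ W K
      have h' : ((#((placements (V := V) ρ).filter (fun φ => Kf φ = K)) : ℕ) : ℝ) ≤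
          (n : ℝ) ^ #K * ((#W : ℝ) + 1) ^ v := by exact_mod_cast h
      refine h'.trans (mul_le_mul_of_nonneg_left ?_ (by positivity))
      gcongr
    calc ∑ φ ∈ (placements (V := V) ρ).filter (fun φ => Kf φ = K), q ^ #(S ∪ image ρ H φ)
        ≤ ∑ _φ ∈ (placements (V := V) ρ).filter (fun φ => Kf φ = K),
            q ^ #S * q ^ #(touching H K) := sum_le_sum h1
      _ = (#((placements (V := V) ρ).filter (fun φ => Kf φ = K)) : ℝ) *
            (q ^ #S * q ^ #(touching H K)) := by rw [sum_const, nsmul_eq_mul]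
      _ ≤ ((n : ℝ) ^ #K * ((B : ℝ) + 1) ^ v) * (q ^ #S * q ^ #(touching H K)) :=
            mul_le_mul_of_nonneg_right hcard (by positivity)
      _ = q ^ #S * (((B : ℝ) + 1) ^ v * ((n : ℝ) ^ #K * q ^ #(touching H K))) := by ring
      _ ≤ q ^ #S * (((B : ℝ) + 1) ^ v * M) := by gcongr; exact hM K
  refine (sum_le_sum hone).trans ?_
  rw [sum_const, nsmul_eq_mul, Finset.card_univ, Fintype.card_finset, ← hv]
  push_cast
  exact le_of_eq (by ring)

section Moments

variable [Fintype Ω]

/-- The induction behind the moment bound. -/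
lemma moment_aux (ρ : R → Fin n) (H : Finset (Finset (V ⊕ R)))
    (hH : ∀ e ∈ H, ∃ v : V, Sum.inl v ∈ e)
    (w : Ω → ℝ) (E : Ω → Finset (Finset (Fin n))) {A q M : ℝ} (hA : 0 ≤ A) (hq0 : 0 ≤ q)
    (hq1 : q ≤ 1)
    (L : ℕ)
    (hP : ∀ S : Finset (Finset (Fin n)), #S ≤ L → (∀ f ∈ S, ∃ x ∈ f, ∀ s : R, ρ s ≠ x) →
      ∑ ω, (if S ⊆ E ω then w ω else 0) ≤ A * q ^ #S)
    (hM : ∀ K : Finset V, (n : ℝ) ^ #K * q ^ #(touching H K) ≤ M) (B : ℕ) :
    ∀ (r : ℕ) (S : Finset (Finset (Fin n))) (W : Finset (Fin n)),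
      (∀ f ∈ S, ∃ x ∈ f, ∀ s : R, ρ s ≠ x) → (∀ f ∈ S, f ⊆ W) → (∀ s : R, ρ s ∈ W) →
      #W + r * Fintype.card V ≤ B → #S + r * #H ≤ L →
      ∑ ω, (if S ⊆ E ω then w ω * (count ρ H (E ω) : ℝ) ^ r else 0) ≤
        A * q ^ #S * ((2 : ℝ) ^ Fintype.card V * ((B : ℝ) + 1) ^ Fintype.card V * M) ^ r := by
  classical
  set v := Fintype.card V with hv
  set D : ℝ := (2 : ℝ) ^ v * ((B : ℝ) + 1) ^ v * M with hD
  have hM0 : 0 ≤ M := le_trans (by positivity) (hM ∅)
  intro r
  induction r with
  | zero =>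
      intro S W hS _ _ _ hL
      simpa using hP S (by simpa using hL) hS
  | succ r ih =>
      intro S W hS hSW hR hB hL
      have hexp : ∀ ω, (if S ⊆ E ω then w ω * (count ρ H (E ω) : ℝ) ^ (r + 1) else 0) =
          ∑ φ ∈ placements (V := V) ρ,
            (if S ∪ image ρ H φ ⊆ E ω then w ω * (count ρ H (E ω) : ℝ) ^ r else 0) := by
        intro ω
        by_cases hSE : S ⊆ E ω
        · simp only [union_subset_iff, hSE, true_and, if_true]
          rw [← sum_filter, sum_const, nsmul_eq_mul, count, pow_succ]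
          ring
        · simp [union_subset_iff, hSE]
      rw [sum_congr rfl (fun ω _ => hexp ω), sum_comm]
      have hstep : ∀ φ ∈ placements (V := V) ρ,
          ∑ ω, (if S ∪ image ρ H φ ⊆ E ω then w ω * (count ρ H (E ω) : ℝ) ^ r else 0) ≤
            A * q ^ #(S ∪ image ρ H φ) * D ^ r := by
        intro φ hφ
        refine ih _ (W ∪ univ.image φ) ?_ ?_ (fun s => mem_union_left _ (hR s)) ?_ ?_
        · intro f hf
          rcases mem_union.1 hf with hf | hf
          · exact hS f hf
          · exact exists_notMem_root hH hφ hf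
        · intro f hf
          rcases mem_union.1 hf with hf | hf
          · exact (hSW f hf).trans subset_union_left
          · simp only [image, mem_image] at hf
            obtain ⟨e, -, rfl⟩ := hf
            intro x hx
            simp only [mem_image] at hx
            obtain ⟨u, -, rfl⟩ := hx
            cases u with
            | inl a => exact mem_union_right _ (mem_image.2 ⟨a, mem_univ _, rfl⟩)
            | inr s => exact mem_union_left _ (hR s)
        · have h1 := card_union_le W (univ.image φ)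
          have h2 : #((univ : Finset V).image φ) ≤ v := card_image_le
          rw [Nat.succ_mul] at hB
          omega
        · have h1 := card_union_le S (image ρ H φ)
          have h2 : #(image ρ H φ) ≤ #H := card_image_le
          rw [Nat.succ_mul] at hL
          omega
      refine (sum_le_sum hstep).trans ?_
      rw [← sum_mul, ← mul_sum]
      have hone := sum_pow_card_union_le ρ H hq0 hq1 hM S W hSW (B := B)
        (le_trans (Nat.le_add_right _ _) hB)
      have hD0 : 0 ≤ D := by positivity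
      calc A * (∑ φ ∈ placements (V := V) ρ, q ^ #(S ∪ image ρ H φ)) * D ^ r
          ≤ A * (q ^ #S * D) * D ^ r := by gcongr
        _ = A * q ^ #S * D ^ (r + 1) := by ring

/-- The constant of the moment bound: it depends only on the pattern and on `r`. -/
def momentConst (v m r : ℕ) : ℝ := (2 : ℝ) ^ v * (((m + r * v : ℕ) : ℝ) + 1) ^ v

/-- **Moment bound for rooted extension counts.** -/
theorem moment_count_le (ρ : R → Fin n) (H : Finset (Finset (V ⊕ R)))
    (hH : ∀ e ∈ H, ∃ v : V, Sum.inl v ∈ e)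
    (w : Ω → ℝ) (E : Ω → Finset (Finset (Fin n))) {A q M : ℝ} (hA : 0 ≤ A) (hq0 : 0 ≤ q)
    (hq1 : q ≤ 1)
    (r : ℕ)
    (hP : ∀ S : Finset (Finset (Fin n)), #S ≤ r * #H → (∀ f ∈ S, ∃ x ∈ f, ∀ s : R, ρ s ≠ x) →
      ∑ ω, (if S ⊆ E ω then w ω else 0) ≤ A * q ^ #S)
    (hM : ∀ K : Finset V, (n : ℝ) ^ #K * q ^ #(touching H K) ≤ M) :
    ∑ ω, w ω * (count ρ H (E ω) : ℝ) ^ r ≤
      A * (momentConst (Fintype.card V) (Fintype.card R) r * M) ^ r := by
  classical
  have hR : #((univ : Finset R).image ρ) ≤ Fintype.card R := card_image_le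
  have h := moment_aux ρ H hH w E hA hq0 hq1 (r * #H) hP hM (Fintype.card R + r * Fintype.card V) r ∅
    ((univ : Finset R).image ρ) (by simp) (by simp)
    (fun s => mem_image.2 ⟨s, mem_univ _, rfl⟩) (by omega) (by simp)
  simpa [momentConst] using h

/-- Markov's inequality for the `r`-th moment. -/
theorem weight_count_ge_le (ρ : R → Fin n) (H : Finset (Finset (V ⊕ R)))
    (hH : ∀ e ∈ H, ∃ v : V, Sum.inl v ∈ e)
    (w : Ω → ℝ) (hw : ∀ ω, 0 ≤ w ω) (E : Ω → Finset (Finset (Fin n))) {A q M lam : ℝ}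
    (hA : 0 ≤ A) (hq0 : 0 ≤ q) (hq1 : q ≤ 1) (hlam : 0 < lam)
    (r : ℕ)
    (hP : ∀ S : Finset (Finset (Fin n)), #S ≤ r * #H → (∀ f ∈ S, ∃ x ∈ f, ∀ s : R, ρ s ≠ x) →
      ∑ ω, (if S ⊆ E ω then w ω else 0) ≤ A * q ^ #S)
    (hM : ∀ K : Finset V, (n : ℝ) ^ #K * q ^ #(touching H K) ≤ M) :
    ∑ ω, (if lam ≤ (count ρ H (E ω) : ℝ) then w ω else 0) ≤
      A * (momentConst (Fintype.card V) (Fintype.card R) r * M / lam) ^ r := by
  classical
  have h := moment_count_le ρ H hH w E hA hq0 hq1 r hP hM
  rw [div_pow, ← mul_div_assoc, le_div_iff₀ (pow_pos hlam r), sum_mul]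
  refine le_trans (sum_le_sum fun ω _ => ?_) h
  split_ifs with hl
  · exact mul_le_mul_of_nonneg_left (pow_le_pow_left₀ hlam.le hl r) (hw ω)
  · rw [zero_mul]
    exact mul_nonneg (hw ω) (by positivity)

end Moments

end Vale.Agent.P046.Extension
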