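import Vale.Agent.P046.Chain

/-!
The exact drift of an average over flags at a root.

A flag `a` needs the edges `req a`; a root needs the edges `R`. One step removes a uniform
triangle. On the event that the root survives, the change of the average of `z` over surviving
flags equals (average of the drift of `z`) minus (covariance of the hit count with `z`) plus an
explicit cross term which is quadratic in the change.
-/

namespace Vale.Agent.P046.FlagDrift

open Finset

/-! ### Abstract identity -/

section Abstract

variable {τ α : Type*} [DecidableEq α]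
variable (T : Finset τ) (A : Finset α) (L : τ → Finset α) (z : α → ℝ) (z' : τ → α → ℝ)

/-- The mean over `A`. -/
noncomputable def mean : ℝ := (∑ a ∈ A, z a) / A.card

/-- The number of steps losing `a`. -/
def hits (a : α) : ℕ := (T.filter fun t => a ∈ L t).card

/-- The numerator of the change of the mean in step `t`. -/
noncomputable def num (t : τ) : ℝ :=
  (∑ a ∈ A \ L t, (z' t a - z a)) - ∑ a ∈ L t, (z a - mean A z)

/-- The cross term. -/
noncomputable def cross : ℝ :=
  ∑ t ∈ T, ((L t).card : ℝ) * num A L z z' t /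
    ((A.card : ℝ) * ((A.card : ℝ) - (L t).card))

omit [DecidableEq α] in
lemma sum_sub_mean (hA : A.Nonempty) : ∑ a ∈ A, (z a - mean A z) = 0 := by
  have : (A.card : ℝ) ≠ 0 := by exact_mod_cast hA.card_pos.ne'
  rw [sum_sub_distrib, sum_const, nsmul_eq_mul, mean]
  field_simp
  ring

/-- Change of the mean in one step. -/
lemma mean_change (t : τ) (hL : L t ⊆ A) (hlt : (L t).card < A.card) :
    mean (A \ L t) (z' t) - mean A z =
      num A L z z' t / ((A.card : ℝ) - (L t).card) := by
  have hA : A.Nonempty := card_pos.1 (by omega)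
  have hne : (A.card : ℝ) - (L t).card ≠ 0 := by
    have : ((L t).card : ℝ) < A.card := by exact_mod_cast hlt
    linarith
  have hc : ((A \ L t).card : ℝ) = (A.card : ℝ) - (L t).card := by
    rw [card_sdiff_of_subset hL, Nat.cast_sub hlt.le]
  have h0 : ∑ a ∈ A \ L t, (z a - mean A z) + ∑ a ∈ L t, (z a - mean A z) = 0 := by
    rw [sum_sdiff hL]; exact sum_sub_mean A z hA
  have hdef : num A L z z' t = ∑ a ∈ A \ L t, (z' t a - z a) +
      ∑ a ∈ A \ L t, (z a - mean A z) := by
    rw [num]; linarith
  rw [hdef, ← sum_add_distrib, sum_congr rfl fun a _ => sub_add_sub_cancel (z' t a) (z a) _,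
    sum_sub_distrib, sum_const, nsmul_eq_mul, hc, mean, hc]
  field_simp

/-- The exact identity `L(Avg z) = Avg(L z) - Cov(hits, z) + cross`, before dividing by the
number of possible steps. -/
theorem sum_mean_change (hA : A.Nonempty) (hL : ∀ t ∈ T, L t ⊆ A)
    (hlt : ∀ t ∈ T, (L t).card < A.card) :
    ∑ t ∈ T, (mean (A \ L t) (z' t) - mean A z) =
      (∑ a ∈ A, ∑ t ∈ T.filter (fun t => a ∉ L t), (z' t a - z a)) / A.card
        - (∑ a ∈ A, ((hits T L a : ℝ) - mean A (fun b => (hits T L b : ℝ))) *
            (z a - mean A z)) / A.card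
        + cross T A L z z' := by
  have hD : (A.card : ℝ) ≠ 0 := by exact_mod_cast hA.card_pos.ne'
  have hnum : ∑ t ∈ T, num A L z z' t =
      (∑ a ∈ A, ∑ t ∈ T.filter (fun t => a ∉ L t), (z' t a - z a)) -
        ∑ a ∈ A, (hits T L a : ℝ) * (z a - mean A z) := by
    have e1 : ∑ t ∈ T, ∑ a ∈ A \ L t, (z' t a - z a) =
        ∑ a ∈ A, ∑ t ∈ T.filter (fun t => a ∉ L t), (z' t a - z a) := by
      simp_rw [sum_filter]
      rw [sum_comm]
      refine sum_congr rfl fun t _ => ?_
      rw [← sum_filter]
      congr 1
      ext a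
      simp
    have e2 : ∑ t ∈ T, ∑ a ∈ L t, (z a - mean A z) =
        ∑ a ∈ A, (hits T L a : ℝ) * (z a - mean A z) := by
      simp_rw [hits, ← sum_boole, sum_mul, ite_mul, one_mul, zero_mul]
      rw [sum_comm]
      refine sum_congr rfl fun t ht => ?_
      rw [← sum_filter]
      congr 1
      ext a
      simp only [mem_filter]
      exact ⟨fun h => ⟨hL t ht h, h⟩, fun h => h.2⟩
    calc ∑ t ∈ T, num A L z z' t
        = ∑ t ∈ T, ∑ a ∈ A \ L t, (z' t a - z a) - ∑ t ∈ T, ∑ a ∈ L t, (z a - mean A z) :=
          sum_sub_distrib _ _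
      _ = _ := by rw [e1, e2]
  have hcov : ∑ a ∈ A, ((hits T L a : ℝ) - mean A (fun b => (hits T L b : ℝ))) *
      (z a - mean A z) = ∑ a ∈ A, (hits T L a : ℝ) * (z a - mean A z) := by
    simp_rw [sub_mul]
    rw [sum_sub_distrib, ← mul_sum, sum_sub_mean A z hA, mul_zero, sub_zero]
  rw [hcov, ← sub_div, ← hnum, cross, sum_div, ← sum_add_distrib]
  refine sum_congr rfl fun t ht => ?_
  rw [mean_change A L z z' t (hL t ht) (hlt t ht)]
  have hne : (A.card : ℝ) - (L t).card ≠ 0 := by
    have : ((L t).card : ℝ) < A.card := by exact_mod_cast hlt t ht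
    linarith
  field_simp
  ring

/-- Crude bound on a numerator. -/
lemma abs_num_le (t : τ) {B : ℝ} (hB : ∀ a ∈ L t, |z a - mean A z| ≤ B) :
    |num A L z z' t| ≤ (∑ a ∈ A \ L t, |z' t a - z a|) + (L t).card * B := by
  refine (abs_sub _ _).trans (add_le_add (abs_sum_le_sum_abs _ _) ?_)
  refine (abs_sum_le_sum_abs _ _).trans ((sum_le_sum hB).trans_eq ?_)
  rw [sum_const, nsmul_eq_mul]

/-- Crude bound on the cross term: few flags are lost in a step. -/
theorem abs_cross_le {B : ℝ} (hA : A.Nonempty) (hB : ∀ a ∈ A, |z a - mean A z| ≤ B)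
    (hL : ∀ t ∈ T, L t ⊆ A) (hhalf : ∀ t ∈ T, 2 * (L t).card ≤ A.card) :
    |cross T A L z z'| ≤ 2 / (A.card : ℝ) ^ 2 *
      ∑ t ∈ T, ((L t).card : ℝ) * ((∑ a ∈ A \ L t, |z' t a - z a|) + (L t).card * B) := by
  have hD : (0 : ℝ) < A.card := by exact_mod_cast hA.card_pos
  rw [mul_sum]
  refine (abs_sum_le_sum_abs _ _).trans (sum_le_sum fun t ht => ?_)
  have h2 : 2 * ((L t).card : ℝ) ≤ A.card := by exact_mod_cast hhalf t ht
  have hn := abs_num_le A L z z' t (B := B) fun a ha => hB a (hL t ht ha)
  have hnn := (abs_nonneg (num A L z z' t)).trans hn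
  have hc : (0 : ℝ) ≤ (L t).card := Nat.cast_nonneg _
  rw [abs_div, abs_mul, abs_of_nonneg hc, abs_of_pos (mul_pos hD (by linarith))]
  calc ((L t).card : ℝ) * |num A L z z' t| / (A.card * ((A.card : ℝ) - (L t).card))
      ≤ ((L t).card : ℝ) * |num A L z z' t| / (A.card * ((A.card : ℝ) / 2)) := by
        refine div_le_div_of_nonneg_left (mul_nonneg hc (abs_nonneg _)) (by positivity) ?_
        exact mul_le_mul_of_nonneg_left (by linarith) hD.le
    _ ≤ _ := by
        rw [show (A.card : ℝ) * ((A.card : ℝ) / 2) = (A.card : ℝ) ^ 2 / 2 by ring,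
          div_div_eq_mul_div, div_mul_eq_mul_div, mul_comm 2]
        refine div_le_div_of_nonneg_right ?_ (by positivity)
        exact mul_le_mul_of_nonneg_right (mul_le_mul_of_nonneg_left hn hc) zero_le_two

end Abstract

/-! ### Flags in the triangle removal chain -/

section Flags

open Chain

variable {n : ℕ} {ι : Type*} [DecidableEq ι]
variable (U : Finset ι) (req : ι → St n) (R : St n)

/-- The flags present in `E`. -/
def flags (E : St n) : Finset ι := U.filter fun a => req a ⊆ E

/-- The flags lost when the triangle `t` is removed. -/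
def lost (E : St n) (t : Finset (Fin n)) : Finset ι :=
  (flags U req E).filter fun a => ¬ Disjoint (req a) (sides t)

/-- The triangles not touching the root. -/
def steps (E : St n) : Finset (Finset (Fin n)) :=
  (triangles E).filter fun t => Disjoint R (sides t)

lemma flags_sdiff (E : St n) (t : Finset (Fin n)) :
    flags U req (E \ sides t) = flags U req E \ lost U req E t := by
  ext a
  simp only [flags, lost, mem_sdiff, mem_filter, subset_sdiff]
  tauto

/-- The drift of a flag average of the state-dependent observable `z`, the root surviving. -/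
theorem avg_mean_change (z : St n → ι → ℝ) (E : St n) (hR : R ⊆ E) (hne : triangles E ≠ ∅)
    (hA : (flags U req E).Nonempty)
    (hlt : ∀ t ∈ steps R E, (lost U req E t).card < (flags U req E).card) :
    avg (fun F => if R ⊆ F then mean (flags U req F) (z F) - mean (flags U req E) (z E) else 0) E =
      ((∑ a ∈ flags U req E, ∑ t ∈ (steps R E).filter (fun t => a ∉ lost U req E t),
          (z (E \ sides t) a - z E a)) / (flags U req E).card
        - (∑ a ∈ flags U req E,
            ((hits (steps R E) (lost U req E) a : ℝ) -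
              mean (flags U req E) (fun b => (hits (steps R E) (lost U req E) b : ℝ))) *
            (z E a - mean (flags U req E) (z E))) / (flags U req E).card
        + cross (steps R E) (flags U req E) (lost U req E) (z E)
            (fun t => z (E \ sides t))) / (triangles E).card := by
  rw [← sum_mean_change (steps R E) (flags U req E) (lost U req E) (z E)
    (fun t => z (E \ sides t)) hA (fun t _ => filter_subset _ _) hlt]
  unfold avg
  rw [if_neg hne]
  congr 1
  rw [steps, sum_filter]
  refine sum_congr rfl fun t _ => ?_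
  by_cases h : Disjoint R (sides t)
  · beta_reduce
    rw [if_pos (subset_sdiff.2 ⟨hR, h⟩), if_pos h, flags_sdiff]
  · beta_reduce
    rw [if_neg fun h' => h (subset_sdiff.1 h').2, if_neg h]

/-- The hit count of a flag is the number of triangles meeting it but not the root. -/
lemma hits_eq (E : St n) {a : ι} (ha : a ∈ flags U req E) :
    hits (steps R E) (lost U req E) a =
      ((triangles E).filter fun t => ¬ Disjoint (sides t) (req a) ∧ Disjoint R (sides t)).card := by
  rw [hits, steps, filter_filter]
  congr 1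
  refine filter_congr fun t _ => ?_
  simp only [lost, mem_filter, ha, true_and, disjoint_comm]
  tauto

/-- The triangles meeting a set number at most the sum of its codegrees. -/
lemma hit_upper (E S : St n) :
    (((triangles E).filter fun t => ¬ Disjoint (sides t) S).card : ℝ) ≤
      ∑ e ∈ S, (deg E e : ℝ) := by
  have h : ((triangles E).filter fun t => ¬ Disjoint (sides t) S) ⊆
      S.biUnion fun e => (triangles E).filter fun t => e ∈ sides t := by
    intro t ht
    obtain ⟨h1, h2⟩ := mem_filter.1 ht
    obtain ⟨e, he, heS⟩ := not_disjoint_iff.1 h2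
    exact mem_biUnion.2 ⟨e, heS, mem_filter.2 ⟨h1, he⟩⟩
  exact_mod_cast (card_le_card h).trans (card_biUnion_le)

/-- Two distinct edges lie in at most one triangle together. -/
lemma pair_card_le_one (E : St n) {e f : Finset (Fin n)} (hef : e ≠ f) :
    ((triangles E).filter fun t => e ∈ sides t ∧ f ∈ sides t).card ≤ 1 := by
  rw [card_le_one]
  intro t ht u hu
  simp only [mem_filter] at ht hu
  by_contra hne
  exact hef (card_le_one.1 (common_sides ht.1 hu.1 hne) e
    (mem_inter.2 ⟨ht.2.1, hu.2.1⟩) f (mem_inter.2 ⟨ht.2.2, hu.2.2⟩))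

/-- The hit count is the sum of codegrees over the non-root edges of the flag, up to the pairs. -/
theorem hits_near (E : St n) {a : ι} (ha : a ∈ flags U req E) (hdis : Disjoint (req a) R) :
    |(hits (steps R E) (lost U req E) a : ℝ) - ∑ e ∈ req a, (deg E e : ℝ)| ≤
      ((req a).card : ℝ) * (((req a).card : ℝ) - 1) + (req a).card * R.card := by
  rw [hits_eq U req R E ha]
  set X := (triangles E).filter fun t => ¬ Disjoint (sides t) (req a) with hX
  set Y := (triangles E).filter
    fun t => ¬ Disjoint (sides t) (req a) ∧ Disjoint R (sides t) with hY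
  have hYX : Y ⊆ X := fun t ht => by
    simp only [hX, hY, mem_filter] at ht ⊢
    exact ⟨ht.1, ht.2.1⟩
  have hdiff : (X \ Y).card ≤ (req a).card * R.card := by
    have hsub : X \ Y ⊆ ((req a) ×ˢ R).biUnion fun p =>
        (triangles E).filter fun t => p.1 ∈ sides t ∧ p.2 ∈ sides t := by
      intro t ht
      simp only [hX, hY, mem_sdiff, mem_filter] at ht
      obtain ⟨⟨h1, h2⟩, h3⟩ := ht
      obtain ⟨e, he, hea⟩ := not_disjoint_iff.1 h2
      obtain ⟨f, hfR, hf⟩ := not_disjoint_iff.1 fun hd => h3 ⟨h1, h2, hd⟩
      exact mem_biUnion.2 ⟨(e, f), mem_product.2 ⟨hea, hfR⟩, mem_filter.2 ⟨h1, he, hf⟩⟩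
    refine ((card_le_card hsub).trans card_biUnion_le).trans ?_
    refine (sum_le_sum (g := fun _ => 1) fun p hp => ?_).trans (by simp)
    obtain ⟨hp1, hp2⟩ := mem_product.1 hp
    exact pair_card_le_one E fun h => disjoint_left.1 hdis hp1 (h ▸ hp2)
  have h1 : (Y.card : ℝ) ≤ X.card := by exact_mod_cast card_le_card hYX
  have h2 : (X.card : ℝ) ≤ Y.card + (req a).card * R.card := by
    have h := card_sdiff_add_card_eq_card hYX
    have : X.card ≤ Y.card + (req a).card * R.card := by omega
    exact_mod_cast this
  have h3 : (X.card : ℝ) ≤ ∑ e ∈ req a, (deg E e : ℝ) := hit_upper E (req a)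
  have h4 : (∑ e ∈ req a, (deg E e : ℝ)) - ((req a).card : ℝ) * (((req a).card : ℝ) - 1) ≤
      X.card := hit_lower E (req a)
  have h5 : (0 : ℝ) ≤ (req a).card * R.card := by positivity
  have h6 : (0 : ℝ) ≤ ((req a).card : ℝ) * (((req a).card : ℝ) - 1) := by
    rcases Nat.eq_zero_or_pos (req a).card with h | h
    · simp [h]
    · exact mul_nonneg (Nat.cast_nonneg _) (sub_nonneg.2 (by exact_mod_cast h))
  rw [abs_le]
  constructor <;> linarith

end Flags

end Vale.Agent.P046.FlagDrift
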