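import Vale.Agent.P046.Contract.Graph

/-!
# The averaging operator on edges and its two-point spectrum

`opA` averages over the triangles at an edge and their two other sides.  If the centred pivot
averaging and the centred vertex averaging contract the weighted L2 norm by `δ`, then
`opA² - opA / 2` contracts it by `4 δ` on functions of mean zero; so a high power of it is
negligible in the sup norm on the edges.
-/

namespace Vale.Agent.P046.Gap

open Finset Vale.Agent.P046.Contract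

variable {n : ℕ} (E : Finset (Finset (Fin n)))

/-- Codegree as a real number. -/
noncomputable def cod (b c : Fin n) : ℝ := ((flags E b c).card : ℝ)

/-- Total weight at a vertex. -/
noncomputable def vw (b : Fin n) : ℝ := ∑ c ∈ nbr E b, cod E b c

/-- Weighted square norm of a function of directed edges. -/
noncomputable def nsq (z : Fin n → Fin n → ℝ) : ℝ :=
  ∑ b, ∑ c ∈ nbr E b, cod E b c * z b c ^ 2

/-- Weighted sum over directed edges. -/
noncomputable def tot (z : Fin n → Fin n → ℝ) : ℝ := ∑ b, ∑ c ∈ nbr E b, cod E b c * z b c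

/-- Symmetrisation. -/
noncomputable def sym (z : Fin n → Fin n → ℝ) : Fin n → Fin n → ℝ :=
  fun b c => (z b c + z c b) / 2

/-- The averaging operator: over triangles at `bc`, the mean over the two other sides. -/
noncomputable def opA (z : Fin n → Fin n → ℝ) : Fin n → Fin n → ℝ := sym (pivAvg E z)

/-- `opA² - opA / 2`. -/
noncomputable def opQ (z : Fin n → Fin n → ℝ) : Fin n → Fin n → ℝ :=
  opA E (opA E z) - (1 / 2 : ℝ) • opA E z

lemma cod_nonneg (b c : Fin n) : 0 ≤ cod E b c := Nat.cast_nonneg _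

lemma cod_comm (b c : Fin n) : cod E b c = cod E c b := by rw [cod, cod, flags_comm]

lemma vw_nonneg (b : Fin n) : 0 ≤ vw E b := sum_nonneg fun _ _ => cod_nonneg E _ _

lemma nsq_nonneg (z : Fin n → Fin n → ℝ) : 0 ≤ nsq E z :=
  sum_nonneg fun _ _ => sum_nonneg fun _ _ => mul_nonneg (cod_nonneg E _ _) (sq_nonneg _)

lemma mem_nbr_comm {b c : Fin n} : c ∈ nbr E b ↔ b ∈ nbr E c := by
  rw [mem_nbr, mem_nbr, Finset.pair_comm]

/-- Double counting of directed edges in the two directions. -/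
lemma sum_rev (F : Fin n → Fin n → ℝ) :
    ∑ b, ∑ c ∈ nbr E b, F c b = ∑ b, ∑ c ∈ nbr E b, F b c := by
  rw [sum_comm' (s := univ) (t := nbr E) (t' := univ) (s' := nbr E)]
  intro b c
  simp [mem_nbr_comm E (b := b) (c := c)]

/-- Double counting in the link of a vertex. -/
lemma sum_flags (b : Fin n) (F : Fin n → ℝ) :
    ∑ c ∈ nbr E b, ∑ d ∈ flags E b c, F d = ∑ d ∈ nbr E b, cod E b d * F d := by
  rw [sum_comm' (s' := fun d => flags E b d) (t' := nbr E b)]
  · exact sum_congr rfl fun d _ => by rw [sum_const, nsmul_eq_mul, cod]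
  · intro c d
    simp only [mem_flags, Finset.pair_comm d c]
    tauto

lemma nsq_rev (z : Fin n → Fin n → ℝ) : nsq E (fun b c => z c b) = nsq E z := by
  unfold nsq
  rw [← sum_rev E fun b c => cod E b c * z b c ^ 2]
  exact sum_congr rfl fun b _ => sum_congr rfl fun c _ => by rw [cod_comm]

lemma tot_rev (z : Fin n → Fin n → ℝ) : tot E (fun b c => z c b) = tot E z := by
  unfold tot
  rw [← sum_rev E fun b c => cod E b c * z b c]
  exact sum_congr rfl fun b _ => sum_congr rfl fun c _ => by rw [cod_comm]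

lemma tot_sym (z : Fin n → Fin n → ℝ) : tot E (sym z) = tot E z := by
  have h : tot E (sym z) = (tot E z + tot E (fun b c => z c b)) / 2 := by
    simp only [tot, sym, ← sum_add_distrib, sum_div]
    exact sum_congr rfl fun b _ => sum_congr rfl fun c _ => by ring
  rw [h, tot_rev]; ring

lemma nsq_sym_le (z : Fin n → Fin n → ℝ) : nsq E (sym z) ≤ nsq E z := by
  have h : nsq E (sym z) ≤ (nsq E z + nsq E (fun b c => z c b)) / 2 := by
    simp only [nsq, sym, ← sum_add_distrib, sum_div]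
    refine sum_le_sum fun b _ => sum_le_sum fun c _ => ?_
    nlinarith [mul_nonneg (cod_nonneg E b c) (sq_nonneg (z b c - z c b))]
  rw [nsq_rev E z] at h; linarith

lemma nsq_pivAvg_le (z : Fin n → Fin n → ℝ) : nsq E (pivAvg E z) ≤ nsq E z := by
  refine sum_le_sum fun b _ => ?_
  rw [← sum_flags E b fun d => z b d ^ 2]
  refine sum_le_sum fun c _ => ?_
  rcases (flags E b c).eq_empty_or_nonempty with h | h
  · simp [cod, h]
  have h0 : (0:ℝ) < (flags E b c).card := Nat.cast_pos.2 h.card_pos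
  rw [pivAvg, cod, div_pow, ← mul_div_assoc, div_le_iff₀ (by positivity)]
  calc ((flags E b c).card : ℝ) * (∑ d ∈ flags E b c, z b d) ^ 2
      ≤ (flags E b c).card * ((flags E b c).card * ∑ d ∈ flags E b c, z b d ^ 2) :=
        mul_le_mul_of_nonneg_left sq_sum_le_card_mul_sum_sq h0.le
    _ = _ := by ring

lemma tot_pivAvg (z : Fin n → Fin n → ℝ) : tot E (pivAvg E z) = tot E z := by
  refine sum_congr rfl fun b _ => ?_
  rw [← sum_flags E b (z b)]
  refine sum_congr rfl fun c _ => ?_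
  rcases (flags E b c).eq_empty_or_nonempty with h | h
  · simp [cod, h]
  · rw [pivAvg, cod, mul_div_cancel₀ _ (Nat.cast_ne_zero.2 h.card_pos.ne')]

lemma nsq_opA_le (z : Fin n → Fin n → ℝ) : nsq E (opA E z) ≤ nsq E z :=
  (nsq_sym_le E _).trans (nsq_pivAvg_le E z)

lemma tot_opA (z : Fin n → Fin n → ℝ) : tot E (opA E z) = tot E z := by
  rw [opA, tot_sym, tot_pivAvg]

lemma tot_sub_smul (f g : Fin n → Fin n → ℝ) (r : ℝ) :
    tot E (f - r • g) = tot E f - r * tot E g := by
  simp only [tot, mul_sum, ← sum_sub_distrib, Pi.sub_apply, Pi.smul_apply, smul_eq_mul]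
  exact sum_congr rfl fun b _ => sum_congr rfl fun c _ => by ring

lemma nsq_vert (g : Fin n → ℝ) : nsq E (fun b _ => g b) = ∑ b, vw E b * g b ^ 2 := by
  simp [nsq, vw, sum_mul]

lemma nsq_pivProj_le (z : Fin n → Fin n → ℝ) :
    ∑ b, vw E b * pivProj E z b ^ 2 ≤ nsq E z := by
  refine sum_le_sum fun b _ => ?_
  rcases (vw_nonneg E b).eq_or_lt with h | h
  · rw [← h, zero_mul]
    exact sum_nonneg fun c _ => mul_nonneg (cod_nonneg E _ _) (sq_nonneg _)
  have e : pivProj E z b = (∑ c ∈ nbr E b, cod E b c * z b c) / vw E b := rfl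
  rw [e, div_pow, ← mul_div_assoc, div_le_iff₀ (by positivity)]
  have := sum_sq_le_sum_mul_sum_of_sq_le_mul (nbr E b) (r := fun c => cod E b c * z b c)
    (f := fun c => cod E b c) (g := fun c => cod E b c * z b c ^ 2)
    (fun c _ => cod_nonneg E _ _) (fun c _ => mul_nonneg (cod_nonneg E _ _) (sq_nonneg _))
    (fun c _ => le_of_eq (by ring))
  calc vw E b * (∑ c ∈ nbr E b, cod E b c * z b c) ^ 2
      ≤ vw E b * (vw E b * ∑ c ∈ nbr E b, cod E b c * z b c ^ 2) :=
        mul_le_mul_of_nonneg_left this h.le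
    _ = _ := by ring

lemma vw_mul_pivProj (z : Fin n → Fin n → ℝ) (b : Fin n) :
    vw E b * pivProj E z b = ∑ c ∈ nbr E b, cod E b c * z b c := by
  rcases (vw_nonneg E b).eq_or_lt with h | h
  · rw [← h, zero_mul]
    refine (sum_eq_zero fun c hc => ?_).symm
    rw [(sum_eq_zero_iff_of_nonneg fun c _ => cod_nonneg E b c).1 h.symm c hc, zero_mul]
  · exact mul_div_cancel₀ _ h.ne'

/-- The vertex averaging of the projection of a mean-zero function is centred. -/
lemma vertProj_pivProj {z : Fin n → Fin n → ℝ} (h : tot E z = 0) :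
    vertProj E (pivProj E z) = 0 := by
  have : ∑ b, vw E b * pivProj E z b = 0 := by
    rw [← h]; exact sum_congr rfl fun b _ => vw_mul_pivProj E z b
  unfold vertProj
  rw [show (∑ b, (∑ c ∈ nbr E b, ((flags E b c).card : ℝ)) * pivProj E z b) = 0 from this,
    zero_div]

/-- Projection of a symmetrised vertex function. -/
lemma pivProj_sym_vert (g : Fin n → ℝ) (b : Fin n) (h : vw E b ≠ 0) :
    pivProj E (sym fun x _ => g x) b = (g b + vertAvg E g b) / 2 := by
  have e : pivProj E (sym fun x _ => g x) b =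
      (∑ c ∈ nbr E b, cod E b c * ((g b + g c) / 2)) / vw E b := rfl
  have e2 : vertAvg E g b = (∑ c ∈ nbr E b, cod E b c * g c) / vw E b := rfl
  rw [e, e2]
  have e3 : ∑ c ∈ nbr E b, cod E b c * ((g b + g c) / 2) =
      (vw E b * g b + ∑ c ∈ nbr E b, cod E b c * g c) / 2 := by
    rw [vw, sum_mul, ← sum_add_distrib, sum_div]
    exact sum_congr rfl fun c _ => by ring
  rw [e3]
  field_simp

/-- Contraction of the centred pivot averaging in weighted L2. -/
def PivotGap (δ : ℝ) : Prop :=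
  ∀ z : Fin n → Fin n → ℝ, nsq E (pivCentred E z) ≤ δ ^ 2 * nsq E z

/-- Contraction of the centred vertex averaging in weighted L2. -/
def VertexGap (δ : ℝ) : Prop :=
  ∀ g : Fin n → ℝ, ∑ b, vw E b * (vertAvg E g b - vertProj E g) ^ 2
    ≤ δ ^ 2 * ∑ b, vw E b * g b ^ 2

/-- The key bound: `opA² - opA / 2` is small on functions of mean zero. -/
theorem nsq_opQ_le {δ : ℝ} (hP : PivotGap E δ) (hV : VertexGap E δ)
    {z : Fin n → Fin n → ℝ} (h0 : tot E z = 0) : nsq E (opQ E z) ≤ 16 * δ ^ 2 * nsq E z := by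
  set g : Fin n → ℝ := pivProj E z with hg
  set G : Fin n → Fin n → ℝ := sym fun x _ => g x with hG
  set e : Fin n → Fin n → ℝ := sym (pivCentred E z) with he
  set h : Fin n → ℝ := fun b => pivProj E G b - g b / 2 with hh
  have hsplit : opA E z = G + e := by
    funext b c
    simp only [opA, hG, he, hg, sym, Pi.add_apply, pivCentred]
    ring
  have hAdd : opA E (G + e) = opA E G + opA E e := by
    funext b c
    simp only [opA, sym, pivAvg, Pi.add_apply, sum_add_distrib, add_div]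
    ring
  set p1 : Fin n → Fin n → ℝ := sym fun x _ => h x
  set p2 : Fin n → Fin n → ℝ := sym (pivCentred E G)
  set p3 : Fin n → Fin n → ℝ := opA E e
  have hQ : ∀ b c, opQ E z b c = p1 b c + p2 b c + p3 b c - e b c / 2 := by
    intro b c
    simp only [opQ, hsplit, hAdd, Pi.sub_apply, Pi.smul_apply, Pi.add_apply, smul_eq_mul, p3]
    simp only [p1, p2, hh, opA, sym, pivCentred, hG]
    ring
  have hgz : ∑ b, vw E b * g b ^ 2 ≤ nsq E z := nsq_pivProj_le E z
  have hGz : nsq E G ≤ nsq E z := (nsq_sym_le E _).trans ((nsq_vert E g).trans_le hgz)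
  have hδ := sq_nonneg δ
  have hez : nsq E e ≤ δ ^ 2 * nsq E z := (nsq_sym_le E _).trans (hP z)
  have b1 : nsq E p1 ≤ δ ^ 2 * nsq E z := by
    refine (nsq_sym_le E _).trans ((nsq_vert E h).trans_le ?_)
    refine le_trans ?_ ((hV g).trans (mul_le_mul_of_nonneg_left hgz hδ))
    refine sum_le_sum fun b _ => ?_
    rcases eq_or_ne (vw E b) 0 with hb | hb
    · simp [hb]
    have : h b = (vertAvg E g b - vertProj E g) / 2 := by
      simp only [hh, hG, pivProj_sym_vert E g b hb]
      rw [hg, vertProj_pivProj E h0]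
      ring
    rw [this]
    nlinarith [mul_nonneg (vw_nonneg E b) (sq_nonneg (vertAvg E g b - vertProj E g))]
  have b2 : nsq E p2 ≤ δ ^ 2 * nsq E z :=
    ((nsq_sym_le E _).trans (hP G)).trans (mul_le_mul_of_nonneg_left hGz hδ)
  have b3 : nsq E p3 ≤ δ ^ 2 * nsq E z := (nsq_opA_le E e).trans hez
  have : nsq E (opQ E z) ≤ 4 * (nsq E p1 + nsq E p2 + nsq E p3 + nsq E e) := by
    simp only [nsq, ← sum_add_distrib, mul_sum]
    refine sum_le_sum fun b _ => sum_le_sum fun c _ => ?_
    rw [hQ]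
    have hw := cod_nonneg E b c
    have key : (p1 b c + p2 b c + p3 b c - e b c / 2) ^ 2
        ≤ 4 * (p1 b c ^ 2 + p2 b c ^ 2 + p3 b c ^ 2 + e b c ^ 2) := by
      nlinarith [sq_nonneg (p1 b c - p2 b c), sq_nonneg (p1 b c - p3 b c),
        sq_nonneg (p2 b c - p3 b c), sq_nonneg (p1 b c + e b c / 2),
        sq_nonneg (p2 b c + e b c / 2), sq_nonneg (p3 b c + e b c / 2), sq_nonneg (e b c)]
    calc _ ≤ cod E b c * (4 * (p1 b c ^ 2 + p2 b c ^ 2 + p3 b c ^ 2 + e b c ^ 2)) :=
          mul_le_mul_of_nonneg_left key hw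
      _ = _ := by ring
  linarith

lemma tot_opQ (z : Fin n → Fin n → ℝ) : tot E (opQ E z) = tot E z / 2 := by
  rw [opQ, tot_sub_smul, tot_opA, tot_opA]; ring

theorem nsq_iterate_le {δ : ℝ} (hP : PivotGap E δ) (hV : VertexGap E δ)
    {z : Fin n → Fin n → ℝ} (h0 : tot E z = 0) (M : ℕ) :
    tot E ((opQ E)^[M] z) = 0 ∧ nsq E ((opQ E)^[M] z) ≤ (16 * δ ^ 2) ^ M * nsq E z := by
  induction M with
  | zero => simp [h0]
  | succ M ih =>
    rw [Function.iterate_succ_apply']
    refine ⟨by rw [tot_opQ, ih.1, zero_div], (nsq_opQ_le E hP hV ih.1).trans ?_⟩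
    rw [pow_succ' (16 * δ ^ 2) M, mul_assoc ((16:ℝ) * δ ^ 2)]
    exact mul_le_mul_of_nonneg_left ih.2 (mul_nonneg (by norm_num : (0:ℝ) ≤ 16) (sq_nonneg δ))

/-- `opA` sees only the values on the edges. -/
lemma opA_congr {f g : Fin n → Fin n → ℝ} (h : ∀ b, ∀ c ∈ nbr E b, f b c = g b c) :
    opA E f = opA E g := by
  funext b c
  simp only [opA, sym, pivAvg]
  congr 2
  · exact congrArg (· / _) (sum_congr rfl fun d hd => h b d (mem_flags.1 hd).1)
  · exact congrArg (· / _) (sum_congr rfl fun d hd => h c d (mem_flags.1 hd).1)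

lemma opA_sub_const (hY : ∀ b, ∀ c ∈ nbr E b, 0 < cod E b c) (f : Fin n → Fin n → ℝ) (r : ℝ)
    (b c : Fin n) (hc : c ∈ nbr E b) : opA E (fun x y => f x y - r) b c = opA E f b c - r := by
  have h1 : ((flags E b c).card : ℝ) ≠ 0 := (hY b c hc).ne'
  have h2 : ((flags E c b).card : ℝ) ≠ 0 := (hY c b ((mem_nbr_comm E).1 hc)).ne'
  simp only [opA, sym, pivAvg, sum_sub_distrib, sum_const, nsmul_eq_mul, sub_div,
    mul_div_cancel_left₀ _ h1, mul_div_cancel_left₀ _ h2]
  ring

lemma opQ_congr {f g : Fin n → Fin n → ℝ} (h : ∀ b, ∀ c ∈ nbr E b, f b c = g b c) :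
    opQ E f = opQ E g := by
  rw [opQ, opQ, opA_congr E h]

lemma opQ_sub_const (hY : ∀ b, ∀ c ∈ nbr E b, 0 < cod E b c) (f : Fin n → Fin n → ℝ) (r : ℝ)
    (b c : Fin n) (hc : c ∈ nbr E b) :
    opQ E (fun x y => f x y - r) b c = opQ E f b c - r / 2 := by
  simp only [opQ, Pi.sub_apply, Pi.smul_apply, smul_eq_mul]
  rw [opA_congr E (f := opA E fun x y => f x y - r) (g := fun x y => opA E f x y - r)
    (fun x y hy => opA_sub_const E hY f r x y hy), opA_sub_const E hY _ r b c hc,
    opA_sub_const E hY f r b c hc]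
  ring

lemma iterate_sub_const (hY : ∀ b, ∀ c ∈ nbr E b, 0 < cod E b c) (f : Fin n → Fin n → ℝ) (r : ℝ)
    (M : ℕ) (b c : Fin n) (hc : c ∈ nbr E b) :
    (opQ E)^[M] (fun x y => f x y - r) b c = (opQ E)^[M] f b c - r / 2 ^ M := by
  induction M generalizing b c with
  | zero => simp
  | succ M ih =>
    rw [Function.iterate_succ_apply', Function.iterate_succ_apply',
      opQ_congr E (g := fun x y => (opQ E)^[M] f x y - r / 2 ^ M) ih,
      opQ_sub_const E hY _ _ b c hc, pow_succ, div_div]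

lemma sq_le_nsq (hY : ∀ b, ∀ c ∈ nbr E b, 0 < cod E b c) (f : Fin n → Fin n → ℝ)
    {b c : Fin n} (hc : c ∈ nbr E b) : f b c ^ 2 ≤ nsq E f := by
  have h1 : (1:ℝ) ≤ cod E b c := by
    have := hY b c hc
    rw [cod] at this ⊢
    exact_mod_cast (Nat.cast_pos.1 this : 0 < (flags E b c).card)
  calc f b c ^ 2 ≤ cod E b c * f b c ^ 2 := le_mul_of_one_le_left (sq_nonneg _) h1
    _ ≤ ∑ y ∈ nbr E b, cod E b y * f b y ^ 2 :=
        single_le_sum (f := fun y => cod E b y * f b y ^ 2)
          (fun y _ => mul_nonneg (cod_nonneg E _ _) (sq_nonneg _)) hc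
    _ ≤ _ := single_le_sum (f := fun x => ∑ y ∈ nbr E x, cod E x y * f x y ^ 2)
          (fun x _ => sum_nonneg fun y _ => mul_nonneg (cod_nonneg E _ _) (sq_nonneg _))
          (mem_univ b)

lemma vw_total_le : ∑ b, vw E b ≤ (n : ℝ) ^ 3 := by
  have h : ∀ b c, cod E b c ≤ (n : ℝ) := fun b c => by
    rw [cod]; exact_mod_cast (card_le_univ _).trans_eq (Fintype.card_fin n)
  calc ∑ b, vw E b ≤ ∑ b : Fin n, ∑ _c : Fin n, (n : ℝ) := by
        refine sum_le_sum fun b _ => ?_
        exact (sum_le_sum fun c _ => h b c).trans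
          (sum_le_sum_of_subset_of_nonneg (subset_univ _) fun c _ _ => Nat.cast_nonneg n)
    _ = _ := by simp; ring

/-- Closure of the hierarchy: after `M` applications of `opQ` the oscillation is negligible. -/
theorem osc_iterate_le {δ s : ℝ} (hP : PivotGap E δ) (hV : VertexGap E δ)
    (hY : ∀ b, ∀ c ∈ nbr E b, 0 < cod E b c) {z : Fin n → Fin n → ℝ}
    (hs : ∀ b, ∀ c ∈ nbr E b, |z b c| ≤ s) (M : ℕ) {b c b' c' : Fin n}
    (hc : c ∈ nbr E b) (hc' : c' ∈ nbr E b') :
    ((opQ E)^[M] z b c - (opQ E)^[M] z b' c') ^ 2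
      ≤ 16 * ((16 * δ ^ 2) ^ M * ((n : ℝ) ^ 3 * s ^ 2)) := by
  have hs0 : 0 ≤ s := (abs_nonneg _).trans (hs b c hc)
  have hW : 0 < ∑ x, vw E x :=
    lt_of_lt_of_le ((hY b c hc).trans_le (single_le_sum (fun y _ => cod_nonneg E b y) hc))
      (single_le_sum (fun x _ => vw_nonneg E x) (mem_univ b))
  set m := tot E z / ∑ x, vw E x
  have hm : |m| ≤ s := by
    rw [abs_div, abs_of_pos hW, div_le_iff₀ hW]
    refine (abs_sum_le_sum_abs _ _).trans ((sum_le_sum fun x _ => abs_sum_le_sum_abs _ _).trans ?_)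
    rw [mul_sum]
    refine sum_le_sum fun x _ => ?_
    rw [vw, mul_sum]
    refine sum_le_sum fun y hy => ?_
    rw [abs_mul, abs_of_nonneg (cod_nonneg E x y), mul_comm]
    exact mul_le_mul_of_nonneg_right (hs x y hy) (cod_nonneg E x y)
  set f : Fin n → Fin n → ℝ := fun x y => z x y - m
  have hf0 : tot E f = 0 := by
    have : tot E f = tot E z - m * ∑ x, vw E x := by
      simp only [tot, f, vw, mul_sum, ← sum_sub_distrib]
      exact sum_congr rfl fun x _ => sum_congr rfl fun y _ => by ring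
    rw [this, div_mul_cancel₀ _ hW.ne', sub_self]
  have hf : nsq E f ≤ 4 * ((n : ℝ) ^ 3 * s ^ 2) := by
    calc nsq E f ≤ ∑ x, ∑ y ∈ nbr E x, cod E x y * (2 * s) ^ 2 := by
          refine sum_le_sum fun x _ => sum_le_sum fun y hy => ?_
          refine mul_le_mul_of_nonneg_left ?_ (cod_nonneg E x y)
          rw [← sq_abs]
          exact pow_le_pow_left₀ (abs_nonneg _)
            ((abs_sub _ _).trans (by linarith [hs x y hy])) 2
      _ = (∑ x, vw E x) * (2 * s) ^ 2 := by simp only [vw, sum_mul]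
      _ ≤ (n : ℝ) ^ 3 * (2 * s) ^ 2 :=
          mul_le_mul_of_nonneg_right (vw_total_le E) (sq_nonneg _)
      _ = _ := by ring
  have hfin := (nsq_iterate_le E hP hV hf0 M).2
  have h1 := (sq_le_nsq E hY ((opQ E)^[M] f) hc).trans hfin
  have h2 := (sq_le_nsq E hY ((opQ E)^[M] f) hc').trans hfin
  have h3 : (16 * δ ^ 2) ^ M * nsq E f
      ≤ (16 * δ ^ 2) ^ M * (4 * ((n : ℝ) ^ 3 * s ^ 2)) :=
    mul_le_mul_of_nonneg_left hf (by positivity)
  rw [iterate_sub_const E hY z m M b c hc] at h1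
  rw [iterate_sub_const E hY z m M b' c' hc'] at h2
  nlinarith [sq_nonneg (((opQ E)^[M] z b c - m / 2 ^ M) + ((opQ E)^[M] z b' c' - m / 2 ^ M))]

end Vale.Agent.P046.Gap
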