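import Vale.Agent.P046.Gap

/-!
# The two contractions needed by `Gap`, from degrees, codegrees and rooted 3-walk counts
-/

namespace Vale.Agent.P046.Gap

open Finset Vale.Agent.P046.Contract

variable {n : ℕ} (E : Finset (Finset (Fin n)))

theorem pivotGap_of_counts {μ ε η δ : ℝ} (hμ : 0 < μ) (hε0 : 0 ≤ ε) (hε : ε ≤ 1 / 8)
    (hη0 : 0 ≤ η) (hdeg : ∀ b, ∀ c ∈ nbr E b, |((flags E b c).card : ℝ) - μ| ≤ ε * μ)
    (hwalk : ∀ b, ∀ x ∈ nbr E b, ∀ y ∈ nbr E b,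
      |(linkWalks E b x y : ℝ) - μ ^ 3 / (nbr E b).card| ≤ η * (μ ^ 3 / (nbr E b).card))
    (hδ : 2 * η + 9 * ε ≤ δ ^ 3) : PivotGap E δ := fun z => by
  unfold nsq
  rw [mul_sum]
  exact sum_le_sum fun b _ =>
    (pivCentred_le_at E b hμ hε0 hε hη0 (hdeg b) (hwalk b) hδ z).1

theorem vertexGap_of_counts {μ D ε η δ : ℝ} (hn : 0 < n) (hμ : 0 < μ) (hD : 0 < D)
    (hε0 : 0 ≤ ε) (hε : ε ≤ 1 / 24) (hη0 : 0 ≤ η)
    (hcodeg : ∀ b, ∀ c ∈ nbr E b, |((flags E b c).card : ℝ) - μ| ≤ ε * μ)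
    (hdeg : ∀ b, |((nbr E b).card : ℝ) - D| ≤ ε * D)
    (hwalk : ∀ x y, |(graphWalks E x y : ℝ) - D ^ 3 / n| ≤ η * (D ^ 3 / n))
    (hδ : 4 * η + 35 * ε ≤ δ ^ 3) : VertexGap E δ := fun g =>
  (vertCentred_le E hn hμ hD hε0 hε hη0 hcodeg hdeg hwalk hδ g).1

end Vale.Agent.P046.Gap
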