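import Mathlib

/-!
Random greedy packing as a deterministic functional of random labels (P046).

`cands sides E` are the candidate triangles inside the edge set `E`; `seq sides f E` is the expected
value of `f` at the end of the sequential uniform removal process started at `E`; `picks sides U E`
is the greedy packing for the labels `U`.

* `integral_final`: for a permutation invariant law of labels, greedy by labels has the law of the
  sequential process (restartable: `E` is arbitrary).
* `X_fix`: the fixed point equation of the survival indicator.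
* `X_sandwich`: the alternating sandwich by the truncated recursions `Y`.
-/

set_option linter.unusedSectionVars false

namespace Vale.Agent.P046.Order

open MeasureTheory Finset
open scoped BigOperators

variable {Ed Tr : Type*} [DecidableEq Ed] [Fintype Tr] [DecidableEq Tr] (sides : Tr → Finset Ed)

/-- Triangles available in the state `E`. -/
def cands (E : Finset Ed) : Finset Tr :=
  univ.filter fun T => sides T ⊆ E ∧ (sides T).Nonempty

omit [DecidableEq Tr] in
theorem mem_cands {E : Finset Ed} {T : Tr} :
    T ∈ cands sides E ↔ sides T ⊆ E ∧ (sides T).Nonempty := by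
  simp [cands]

omit [DecidableEq Tr] in
theorem card_lt_of_cand {E : Finset Ed} {T : Tr} (h : T ∈ cands sides E) :
    (E \ sides T).card < E.card := by
  obtain ⟨h1, e, he⟩ := (mem_cands sides).1 h
  exact card_lt_card ((ssubset_iff_of_subset sdiff_subset).2
    ⟨e, h1 he, fun h => (mem_sdiff.1 h).2 he⟩)

theorem cands_sdiff_subset (E : Finset Ed) (T : Tr) :
    cands sides (E \ sides T) ⊆ cands sides E := fun S hS => by
  obtain ⟨h1, h2⟩ := (mem_cands sides).1 hS
  exact (mem_cands sides).2 ⟨h1.trans sdiff_subset, h2⟩

theorem not_mem_cands_sdiff (E : Finset Ed) (T : Tr) :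
    T ∉ cands sides (E \ sides T) := fun h => by
  obtain ⟨h1, e, he⟩ := (mem_cands sides).1 h
  exact (mem_sdiff.1 (h1 he)).2 he

/-- Expectation of `f` at the final state of the uniform removal process. -/
noncomputable def seq (f : Finset Ed → ℝ) (E : Finset Ed) : ℝ :=
  if (cands sides E).Nonempty then
    (∑ T ∈ (cands sides E).attach, seq f (E \ sides T.1)) / (cands sides E).card
  else f E
termination_by E.card
decreasing_by exact card_lt_of_cand sides T.2

theorem seq_of_empty (f : Finset Ed → ℝ) {E : Finset Ed} (h : ¬ (cands sides E).Nonempty) :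
    seq sides f E = f E := by
  rw [seq, if_neg h]

theorem seq_of_nonempty (f : Finset Ed → ℝ) {E : Finset Ed} (h : (cands sides E).Nonempty) :
    seq sides f E =
      (∑ T ∈ cands sides E, seq sides f (E \ sides T)) / (cands sides E).card := by
  rw [seq, if_pos h, sum_attach (cands sides E) fun T => seq sides f (E \ sides T)]

/-- The available triangle of smallest label. -/
noncomputable def first (U : Tr → ℝ) (E : Finset Ed) (h : (cands sides E).Nonempty) : Tr :=
  (exists_min_image (cands sides E) U h).choose

omit [DecidableEq Tr] in
theorem first_mem (U : Tr → ℝ) (E : Finset Ed) (h : (cands sides E).Nonempty) :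
    first sides U E h ∈ cands sides E :=
  (exists_min_image (cands sides E) U h).choose_spec.1

theorem first_le (U : Tr → ℝ) (E : Finset Ed) (h : (cands sides E).Nonempty) {T : Tr}
    (hT : T ∈ cands sides E) : U (first sides U E h) ≤ U T :=
  (exists_min_image (cands sides E) U h).choose_spec.2 T hT

/-- The greedy packing in increasing order of labels. -/
noncomputable def picks (U : Tr → ℝ) (E : Finset Ed) : Finset Tr :=
  if h : (cands sides E).Nonempty then
    insert (first sides U E h) (picks U (E \ sides (first sides U E h)))
  else ∅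
termination_by E.card
decreasing_by exact card_lt_of_cand sides (first_mem sides U E h)

/-- The leave of greedy in increasing order of labels. -/
noncomputable def final (U : Tr → ℝ) (E : Finset Ed) : Finset Ed :=
  E \ (picks sides U E).biUnion sides

theorem picks_of_empty (U : Tr → ℝ) {E : Finset Ed} (h : ¬ (cands sides E).Nonempty) :
    picks sides U E = ∅ := by
  rw [picks, dif_neg h]

theorem picks_of_nonempty (U : Tr → ℝ) {E : Finset Ed} (h : (cands sides E).Nonempty) :
    picks sides U E =
      insert (first sides U E h) (picks sides U (E \ sides (first sides U E h))) := by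
  rw [picks, dif_pos h]

theorem final_of_empty (U : Tr → ℝ) {E : Finset Ed} (h : ¬ (cands sides E).Nonempty) :
    final sides U E = E := by
  simp [final, picks_of_empty sides U h]

theorem final_of_nonempty (U : Tr → ℝ) {E : Finset Ed} (h : (cands sides E).Nonempty) :
    final sides U E = final sides U (E \ sides (first sides U E h)) := by
  ext e
  simp only [final, picks_of_nonempty sides U h, biUnion_insert, mem_sdiff, mem_union, not_or]
  tauto

theorem picks_subset (U : Tr → ℝ) :
    ∀ (E : Finset Ed), picks sides U E ⊆ cands sides E := by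
  intro E
  induction hn : E.card using Nat.strong_induction_on generalizing E with
  | _ n ih =>
    subst hn
    by_cases h : (cands sides E).Nonempty
    · rw [picks_of_nonempty sides U h, insert_subset_iff]
      exact ⟨first_mem sides U E h,
        (ih _ (card_lt_of_cand sides (first_mem sides U E h)) _ rfl).trans
          (cands_sdiff_subset sides E _)⟩
    · simp [picks_of_empty sides U h]

/-- `T` has strictly the smallest label among the available triangles. -/
def FirstAt (E : Finset Ed) (T : Tr) : Set (Tr → ℝ) :=
  {U | ∀ S ∈ cands sides E, S ≠ T → U T < U S}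

theorem first_eq_of_firstAt {U : Tr → ℝ} {E : Finset Ed} (h : (cands sides E).Nonempty) {T : Tr}
    (hT : T ∈ cands sides E) (hU : U ∈ FirstAt sides E T) : first sides U E h = T := by
  by_contra hne
  exact absurd (first_le sides U E h hT) (not_le.2 (hU _ (first_mem sides U E h) hne))

theorem measurableSet_firstAt (E : Finset Ed) (T : Tr) : MeasurableSet (FirstAt sides E T) := by
  have : FirstAt sides E T = ⋂ S ∈ (cands sides E).filter (· ≠ T), {U | U T < U S} := by
    ext U
    simp [FirstAt, and_imp]
  rw [this]
  exact Finset.measurableSet_biInter _ fun S _ =>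
    measurableSet_lt (measurable_pi_apply T) (measurable_pi_apply S)

/-- Invariance of a law of labels under permutations supported in a set. -/
def InvOn (μ : Measure (Tr → ℝ)) (C : Finset Tr) : Prop :=
  ∀ σ : Equiv.Perm Tr, (∀ T, σ T ≠ T → T ∈ C) → μ.map (fun U => U ∘ σ) = μ

theorem measurable_comp_perm (σ : Equiv.Perm Tr) : Measurable fun U : Tr → ℝ => U ∘ σ :=
  measurable_pi_lambda _ fun T => measurable_pi_apply (σ T)

/-- Greedy by exchangeable labels has the law of the sequential uniform process. -/
theorem integral_final (f : Finset Ed → ℝ) :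
    ∀ (E : Finset Ed) (μ : Measure (Tr → ℝ)) [IsFiniteMeasure μ], InvOn μ (cands sides E) →
      (∀ᵐ U ∂μ, Function.Injective U) →
      Integrable (fun U => f (final sides U E)) μ ∧
        ∫ U, f (final sides U E) ∂μ = μ.real Set.univ * seq sides f E := by
  intro E
  induction hn : E.card using Nat.strong_induction_on generalizing E with
  | _ n ih =>
    subst hn
    intro μ _ hinv hinj
    by_cases h : (cands sides E).Nonempty
    swap
    · simp [final_of_empty sides _ h, seq_of_empty sides f h]
    have hswap : ∀ T ∈ cands sides E, ∀ S ∈ cands sides E,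
        μ.real (FirstAt sides E T) = μ.real (FirstAt sides E S) := by
      intro T hT S hS
      have hsupp : ∀ x, Equiv.swap T S x ≠ x → x ∈ cands sides E := by
        intro x hx
        rcases eq_or_ne x T with rfl | h1
        · exact hT
        rcases eq_or_ne x S with rfl | h2
        · exact hS
        exact absurd (Equiv.swap_apply_of_ne_of_ne h1 h2) hx
      have hpre : (fun U : Tr → ℝ => U ∘ Equiv.swap T S) ⁻¹' FirstAt sides E T =
          FirstAt sides E S := by
        ext U
        simp only [Set.mem_preimage, FirstAt, Set.mem_ofPred_eq, Function.comp_apply,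
          Equiv.swap_apply_left]
        constructor
        · intro hU R hR hRS
          have := hU (Equiv.swap T S R) ?_ ?_
          · simpa using this
          · by_cases hh : Equiv.swap T S R = R
            · rwa [hh]
            · exact hsupp _ fun he => hh (by simpa using congrArg (Equiv.swap T S) he)
          · intro he
            exact hRS (by simpa using congrArg (Equiv.swap T S) he)
        · intro hU R hR hRT
          apply hU
          · by_cases hh : Equiv.swap T S R = R
            · rwa [hh]
            · exact hsupp _ fun he => hh (by simpa using congrArg (Equiv.swap T S) he)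
          · intro he
            exact hRT (by simpa using congrArg (Equiv.swap T S) he)
      rw [Measure.real, Measure.real, ← hpre,
        ← Measure.map_apply (measurable_comp_perm _) (measurableSet_firstAt sides E T),
        hinv _ hsupp]
    have hdisj : Set.PairwiseDisjoint (↑(cands sides E) : Set Tr) (FirstAt sides E) := by
      intro T hT S hS hne
      exact Set.disjoint_left.2 fun U hUT hUS =>
        lt_asymm (hUT S hS hne.symm) (hUS T hT hne)
    have hcov : ∀ᵐ U ∂μ, U ∈ ⋃ T ∈ cands sides E, FirstAt sides E T := by
      filter_upwards [hinj] with U hU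
      refine Set.mem_iUnion₂.2 ⟨_, first_mem sides U E h, fun S hS hne => ?_⟩
      exact lt_of_le_of_ne (first_le sides U E h hS) fun he => hne (hU he).symm
    have hrestr : μ.restrict (⋃ T ∈ cands sides E, FirstAt sides E T) = μ :=
      Measure.restrict_eq_self_of_ae_mem hcov
    have hpiece : ∀ T ∈ cands sides E,
        IntegrableOn (fun U => f (final sides U E)) (FirstAt sides E T) μ ∧
        ∫ U in FirstAt sides E T, f (final sides U E) ∂μ =
          μ.real (FirstAt sides E T) * seq sides f (E \ sides T) := by
      intro T hT
      have hmeas := measurableSet_firstAt sides E T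
      have hinv' : InvOn (μ.restrict (FirstAt sides E T)) (cands sides (E \ sides T)) := by
        intro σ hσ
        have hσT : σ T = T := by
          by_contra hne
          exact not_mem_cands_sdiff sides E T (hσ T hne)
        have hσC : ∀ S, σ S ≠ S → S ∈ cands sides E := fun S hS =>
          cands_sdiff_subset sides E T (hσ S hS)
        have hpre : (fun U : Tr → ℝ => U ∘ σ) ⁻¹' FirstAt sides E T = FirstAt sides E T := by
          ext U
          simp only [Set.mem_preimage, FirstAt, Set.mem_ofPred_eq, Function.comp_apply, hσT]
          constructor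
          · intro hU S hS hne
            have := hU (σ.symm S) ?_ ?_
            · simpa using this
            · by_cases hh : σ (σ.symm S) = σ.symm S
              · have : S = σ.symm S := by simpa using hh
                rwa [← this]
              · exact hσC _ hh
            · intro he
              exact hne (by have := congrArg σ he; simpa [hσT] using this)
          · intro hU S hS hne
            apply hU
            · by_cases hh : σ (σ S) = σ S
              · rwa [σ.injective hh]
              · exact hσC _ hh
            · intro he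
              exact hne (σ.injective (he.trans hσT.symm))
        conv_lhs => rw [← hpre]
        rw [← Measure.restrict_map (measurable_comp_perm σ) hmeas, hinv σ hσC]
      have hinj' : ∀ᵐ U ∂(μ.restrict (FirstAt sides E T)), Function.Injective U :=
        ae_restrict_of_ae hinj
      obtain ⟨hi, he⟩ := ih _ (card_lt_of_cand sides hT) _ rfl
        (μ.restrict (FirstAt sides E T)) hinv' hinj'
      have heq : (fun U => f (final sides U (E \ sides T))) =ᵐ[μ.restrict (FirstAt sides E T)]
          fun U => f (final sides U E) := by
        filter_upwards [ae_restrict_mem hmeas] with U hU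
        rw [final_of_nonempty sides U h, first_eq_of_firstAt sides h hT hU]
      refine ⟨hi.congr heq, ?_⟩
      rw [← integral_congr_ae heq, he, measureReal_restrict_apply_univ]
    refine ⟨?_, ?_⟩
    · rw [← hrestr]
      exact integrableOn_finset_iUnion.2 fun T hT => (hpiece T hT).1
    have hsum : μ.real Set.univ = ∑ T ∈ cands sides E, μ.real (FirstAt sides E T) := by
      conv_lhs => rw [← hrestr]
      rw [measureReal_restrict_apply_univ,
        measureReal_biUnion_finset hdisj fun T _ => measurableSet_firstAt sides E T]
    obtain ⟨T₀, hT₀⟩ := h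
    have hconst : ∀ T ∈ cands sides E,
        μ.real (FirstAt sides E T) = μ.real Set.univ / (cands sides E).card := by
      intro T hT
      rw [hsum, sum_congr rfl fun S hS => hswap S hS T hT, sum_const, nsmul_eq_mul]
      have : ((cands sides E).card : ℝ) ≠ 0 := by
        exact_mod_cast (card_pos.2 ⟨T₀, hT₀⟩).ne'
      field_simp
    conv_lhs => rw [← hrestr]
    rw [integral_biUnion_finset _ (fun T _ => measurableSet_firstAt sides E T) hdisj
      fun T hT => (hpiece T hT).1,
      seq_of_nonempty sides f ⟨T₀, hT₀⟩, sum_div, mul_sum]
    refine sum_congr rfl fun T hT => ?_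
    rw [(hpiece T hT).2, hconst T hT]
    ring

/-- `e` is not covered strictly before time `t` by the greedy packing. -/
def Unc (U : Tr → ℝ) (E : Finset Ed) (e : Ed) (t : ℝ) : Prop :=
  ∀ T ∈ picks sides U E, e ∈ sides T → t ≤ U T

theorem picks_spec (U : Tr → ℝ) (hU : Function.Injective U) :
    ∀ (E : Finset Ed),
      (∀ T ∈ picks sides U E, ∀ g ∈ sides T, Unc sides U E g (U T)) ∧
      (∀ T ∈ cands sides E, T ∉ picks sides U E →
        ∃ g ∈ sides T, ∃ S ∈ picks sides U E, g ∈ sides S ∧ U S < U T) := by
  intro E
  induction hn : E.card using Nat.strong_induction_on generalizing E with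
  | _ n ih =>
    subst hn
    by_cases h : (cands sides E).Nonempty
    swap
    · refine ⟨by simp [picks_of_empty sides U h], fun T hT => absurd ⟨T, hT⟩ h⟩
    have hp := picks_of_nonempty sides U h
    set T₀ := first sides U E h
    have hT₀ : T₀ ∈ cands sides E := first_mem sides U E h
    have hmin : ∀ {T}, T ∈ cands sides E → U T₀ ≤ U T := fun hT => first_le sides U E h hT
    obtain ⟨ih1, ih2⟩ := ih _ (card_lt_of_cand sides hT₀) _ rfl
    have hsub : picks sides U (E \ sides T₀) ⊆ cands sides (E \ sides T₀) :=
      picks_subset sides U _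
    constructor
    · intro T hT g hg S hS hgS
      rw [hp, mem_insert] at hT hS
      rcases hT with rfl | hT <;> rcases hS with rfl | hS
      · exact le_rfl
      · exact absurd hg (mem_sdiff.1 (((mem_cands sides).1 (hsub hS)).1 hgS)).2
      · exact absurd hgS (mem_sdiff.1 (((mem_cands sides).1 (hsub hT)).1 hg)).2
      · exact ih1 T hT g hg S hS hgS
    · intro T hT hnp
      rw [hp, mem_insert, not_or] at hnp
      by_cases hd : ∃ g ∈ sides T, g ∈ sides T₀
      · obtain ⟨g, hg, hg₀⟩ := hd
        exact ⟨g, hg, T₀, by rw [hp]; exact mem_insert_self _ _, hg₀,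
          lt_of_le_of_ne (hmin hT) fun he => hnp.1 (hU he).symm⟩
      · push Not at hd
        obtain ⟨h1, h2⟩ := (mem_cands sides).1 hT
        have hT' : T ∈ cands sides (E \ sides T₀) :=
          (mem_cands sides).2 ⟨fun g hg => mem_sdiff.2 ⟨h1 hg, hd g hg⟩, h2⟩
        obtain ⟨g, hg, S, hS, hgS, hlt⟩ := ih2 T hT' hnp.2
        exact ⟨g, hg, S, by rw [hp]; exact mem_insert_of_mem hS, hgS, hlt⟩

/-- The fixed point equation of greedy packing. -/
theorem unc_iff (U : Tr → ℝ) (hU : Function.Injective U) (E : Finset Ed) (e : Ed) (t : ℝ) :
    Unc sides U E e t ↔ ∀ T ∈ cands sides E, e ∈ sides T →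
      ¬ (U T < t ∧ ∀ g ∈ (sides T).erase e, Unc sides U E g (U T)) := by
  obtain ⟨h1, h2⟩ := picks_spec sides U hU E
  constructor
  · rintro hunc T hT he ⟨hlt, hall⟩
    by_cases hp : T ∈ picks sides U E
    · exact absurd (hunc T hp he) (not_le.2 hlt)
    · obtain ⟨g, hg, S, hS, hgS, hSlt⟩ := h2 T hT hp
      rcases eq_or_ne g e with rfl | hne
      · exact absurd (hunc S hS hgS) (not_le.2 (hSlt.trans hlt))
      · exact absurd (hall g (mem_erase.2 ⟨hne, hg⟩) S hS hgS) (not_le.2 hSlt)
  · intro hall T hT he
    by_contra hlt
    exact hall T (picks_subset sides U E hT) he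
      ⟨not_le.1 hlt, fun g hg => h1 T hT g (mem_of_mem_erase hg)⟩

/-- Indicator of `Unc`. -/
noncomputable def X (U : Tr → ℝ) (E : Finset Ed) (e : Ed) (t : ℝ) : ℝ := by
  classical exact if Unc sides U E e t then 1 else 0

/-- Truncated recursion, from the constant one. -/
noncomputable def Y (U : Tr → ℝ) (E : Finset Ed) : ℕ → Ed → ℝ → ℝ
  | 0, _, _ => 1
  | k + 1, e, t => ∏ T ∈ (cands sides E).filter (fun T => e ∈ sides T),
      (1 - (if U T < t then 1 else 0) * ∏ g ∈ (sides T).erase e, Y U E k g (U T))

theorem X_mem (U : Tr → ℝ) (E : Finset Ed) (e : Ed) (t : ℝ) :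
    0 ≤ X sides U E e t ∧ X sides U E e t ≤ 1 := by
  unfold X
  split <;> simp

theorem X_fix (U : Tr → ℝ) (hU : Function.Injective U) (E : Finset Ed) (e : Ed) (t : ℝ) :
    X sides U E e t = ∏ T ∈ (cands sides E).filter (fun T => e ∈ sides T),
      (1 - (if U T < t then 1 else 0) * ∏ g ∈ (sides T).erase e, X sides U E g (U T)) := by
  classical
  have h01 : ∀ T : Tr, (∀ g ∈ (sides T).erase e, Unc sides U E g (U T)) →
      ∏ g ∈ (sides T).erase e, X sides U E g (U T) = 1 := fun T hT =>
    prod_eq_one fun g hg => by
      unfold X
      rw [if_pos (hT g hg)]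
  have h00 : ∀ T : Tr, (¬ ∀ g ∈ (sides T).erase e, Unc sides U E g (U T)) →
      ∏ g ∈ (sides T).erase e, X sides U E g (U T) = 0 := fun T hT => by
    push Not at hT
    obtain ⟨g, hg, hn⟩ := hT
    refine prod_eq_zero hg ?_
    unfold X
    rw [if_neg hn]
  have hfix := unc_iff sides U hU E e t
  by_cases hu : Unc sides U E e t
  · have hl : X sides U E e t = 1 := by
      unfold X
      rw [if_pos hu]
    rw [hl, eq_comm]
    refine prod_eq_one fun T hT => ?_
    rw [mem_filter] at hT
    have hn := hfix.1 hu T hT.1 hT.2
    by_cases h1 : U T < t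
    · rw [if_pos h1, h00 T fun h => hn ⟨h1, h⟩, mul_zero, sub_zero]
    · rw [if_neg h1, zero_mul, sub_zero]
  · have hl : X sides U E e t = 0 := by
      unfold X
      rw [if_neg hu]
    rw [hl, eq_comm]
    rw [hfix] at hu
    push Not at hu
    obtain ⟨T, hT, he, hlt, hall⟩ := hu
    exact prod_eq_zero (mem_filter.2 ⟨hT, he⟩) (by rw [if_pos hlt, h01 T hall]; ring)

theorem Y_mem (U : Tr → ℝ) (E : Finset Ed) :
    ∀ (k : ℕ) (e : Ed) (t : ℝ), 0 ≤ Y sides U E k e t ∧ Y sides U E k e t ≤ 1
  | 0, _, _ => by simp [Y]
  | k + 1, e, t => by
    have hfac : ∀ T : Tr, 0 ≤ 1 - (if U T < t then (1 : ℝ) else 0) *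
        ∏ g ∈ (sides T).erase e, Y sides U E k g (U T) ∧
        1 - (if U T < t then (1 : ℝ) else 0) *
          ∏ g ∈ (sides T).erase e, Y sides U E k g (U T) ≤ 1 := by
      intro T
      have h0 : 0 ≤ ∏ g ∈ (sides T).erase e, Y sides U E k g (U T) :=
        prod_nonneg fun g _ => (Y_mem U E k g _).1
      have h1 : ∏ g ∈ (sides T).erase e, Y sides U E k g (U T) ≤ 1 :=
        prod_le_one (fun g _ => (Y_mem U E k g _).1) fun g _ => (Y_mem U E k g _).2
      split_ifs <;> constructor <;> linarith
    exact ⟨prod_nonneg fun T _ => (hfac T).1,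
      prod_le_one (fun T _ => (hfac T).1) fun T _ => (hfac T).2⟩

/-- The alternating sandwich. -/
theorem X_sandwich (U : Tr → ℝ) (hU : Function.Injective U) (E : Finset Ed) :
    ∀ (k : ℕ) (e : Ed) (t : ℝ), Y sides U E (2 * k + 1) e t ≤ X sides U E e t ∧
      X sides U E e t ≤ Y sides U E (2 * k) e t := by
  have up : ∀ j, (∀ e t, X sides U E e t ≤ Y sides U E j e t) →
      ∀ e t, Y sides U E (j + 1) e t ≤ X sides U E e t := by
    intro j hj e t
    rw [X_fix sides U hU E e t]
    refine prod_le_prod (fun T _ => ?_) fun T _ => ?_
    · have h1 := prod_le_one (s := (sides T).erase e)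
        (f := fun g => Y sides U E j g (U T)) (fun g _ => (Y_mem sides U E j g _).1)
        fun g _ => (Y_mem sides U E j g _).2
      split_ifs <;> simp only [one_mul, zero_mul, sub_zero] <;> linarith
    · refine sub_le_sub_left (mul_le_mul_of_nonneg_left ?_ (by split_ifs <;> norm_num)) _
      exact prod_le_prod (fun g _ => (X_mem sides U E g _).1) fun g _ => hj g _
  have down : ∀ j, (∀ e t, Y sides U E j e t ≤ X sides U E e t) →
      ∀ e t, X sides U E e t ≤ Y sides U E (j + 1) e t := by
    intro j hj e t
    rw [X_fix sides U hU E e t]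
    refine prod_le_prod (fun T _ => ?_) fun T _ => ?_
    · have h1 := prod_le_one (s := (sides T).erase e)
        (f := fun g => X sides U E g (U T)) (fun g _ => (X_mem sides U E g _).1)
        fun g _ => (X_mem sides U E g _).2
      split_ifs <;> simp only [one_mul, zero_mul, sub_zero] <;> linarith
    · refine sub_le_sub_left (mul_le_mul_of_nonneg_left ?_ (by split_ifs <;> norm_num)) _
      exact prod_le_prod (fun g _ => (Y_mem sides U E j g _).1) fun g _ => hj g _
  intro k
  induction k with
  | zero =>
    have h0 : ∀ e t, X sides U E e t ≤ Y sides U E 0 e t := fun e t => (X_mem sides U E e t).2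
    exact fun e t => ⟨up 0 h0 e t, h0 e t⟩
  | succ k ih =>
    have h0 : ∀ e t, X sides U E e t ≤ Y sides U E (2 * (k + 1)) e t :=
      down _ fun e t => (ih e t).1
    exact fun e t => ⟨up _ h0 e t, h0 e t⟩

/-- The leave consists of the edges uncovered after all labels. -/
theorem sum_X_eq_card_final (U : Tr → ℝ) (E : Finset Ed) (t : ℝ) (ht : ∀ T, U T < t) :
    ∑ e ∈ E, X sides U E e t = (final sides U E).card := by
  classical
  unfold X
  rw [sum_boole]
  congr 1
  refine congrArg Finset.card ?_
  ext e
  constructor
  · intro h
    obtain ⟨he, hu⟩ := mem_filter.1 h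
    refine mem_sdiff.2 ⟨he, fun hb => ?_⟩
    obtain ⟨T, hT, heT⟩ := mem_biUnion.1 hb
    exact absurd (hu T hT heT) (not_le.2 (ht T))
  · intro h
    obtain ⟨he, hb⟩ := mem_sdiff.1 h
    exact mem_filter.2 ⟨he, fun T hT heT => absurd (mem_biUnion.2 ⟨T, hT, heT⟩) hb⟩

/-- The law of a single uniform label. -/
noncomputable def unif : Measure ℝ := (volume : Measure ℝ).restrict (Set.Ioo 0 1)

instance : IsProbabilityMeasure unif := ⟨by simp [unif]⟩

instance : NullSingletonClass unif := by unfold unif; infer_instance

variable (Tr) in
/-- iid uniform labels. -/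
noncomputable def labels : Measure (Tr → ℝ) := Measure.pi fun _ : Tr => unif

instance : IsProbabilityMeasure (labels Tr) := by unfold labels; infer_instance

theorem labels_invOn (C : Finset Tr) : InvOn (labels Tr) C := by
  intro σ _
  have h : (fun U : Tr → ℝ => U ∘ σ) =
      ⇑(MeasurableEquiv.piCongrLeft (fun _ : Tr => ℝ) σ.symm) := by
    funext U T
    obtain ⟨S, rfl⟩ := σ.symm.surjective T
    rw [MeasurableEquiv.coe_piCongrLeft, Equiv.piCongrLeft_apply_apply]
    simp
  rw [h]
  exact (measurePreserving_piCongrLeft (fun _ : Tr => unif) σ.symm).map_eq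

theorem labels_mem : ∀ᵐ U ∂(labels Tr), ∀ T, 0 < U T ∧ U T < 1 := by
  refine ae_all_iff.2 fun T => ?_
  exact (measurePreserving_eval (fun _ : Tr => unif) T).quasiMeasurePreserving.ae
    (by unfold unif; exact ae_restrict_mem measurableSet_Ioo)

theorem labels_injective : ∀ᵐ U ∂(labels Tr), Function.Injective U := by
  have key : ∀ S T : Tr, S ≠ T → ∀ᵐ U ∂(labels Tr), U S ≠ U T := by
    intro S T hne
    have hind : (labels Tr).map (fun U => (U S, U T)) = unif.prod unif := by
      have h := ProbabilityTheory.iIndepFun_pi (μ := fun _ : Tr => unif)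
        (X := fun _ => id) fun _ => aemeasurable_id
      have h2 := (ProbabilityTheory.indepFun_iff_map_prod_eq_prod_map_map
        (measurable_pi_apply S).aemeasurable (measurable_pi_apply T).aemeasurable).1
        (h.indepFun hne)
      rw [labels]
      simpa [(measurePreserving_eval (fun _ : Tr => unif) S).map_eq,
        (measurePreserving_eval (fun _ : Tr => unif) T).map_eq] using h2
    have hd : (unif.prod unif) {p : ℝ × ℝ | p.1 = p.2} = 0 := by
      rw [Measure.prod_apply (measurableSet_eq_fun measurable_fst measurable_snd)]
      simp [Set.preimage]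
    rw [← hind, Measure.map_apply ((measurable_pi_apply S).prodMk (measurable_pi_apply T))
      (measurableSet_eq_fun measurable_fst measurable_snd)] at hd
    exact ae_iff.2 (by simpa using hd)
  have hall : ∀ᵐ U ∂(labels Tr), ∀ S T : Tr, S ≠ T → U S ≠ U T := by
    refine ae_all_iff.2 fun S => ae_all_iff.2 fun T => ?_
    by_cases h : S = T
    · exact Filter.Eventually.of_forall fun U hne => absurd h hne
    · filter_upwards [key S T h] with U hU using fun _ => hU
  filter_upwards [hall] with U hU S T he
  by_contra hne
  exact hU S T hne he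

/-- The sequential process has the law of greedy by iid uniform labels. -/
theorem integral_final_labels (f : Finset Ed → ℝ) (E : Finset Ed) :
    Integrable (fun U => f (final sides U E)) (labels Tr) ∧
      ∫ U, f (final sides U E) ∂(labels Tr) = seq sides f E := by
  obtain ⟨h1, h2⟩ := integral_final sides f E (labels Tr) (labels_invOn _) labels_injective
  exact ⟨h1, by rw [h2, probReal_univ, one_mul]⟩

/-- Almost surely the final number of edges is sandwiched by the truncated recursions at time one. -/
theorem card_final_sandwich (E : Finset Ed) (k : ℕ) :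
    ∀ᵐ U ∂(labels Tr), ∑ e ∈ E, Y sides U E (2 * k + 1) e 1 ≤ (final sides U E).card ∧
      ((final sides U E).card : ℝ) ≤ ∑ e ∈ E, Y sides U E (2 * k) e 1 := by
  filter_upwards [labels_mem, labels_injective] with U h1 h2
  rw [← sum_X_eq_card_final sides U E 1 fun T => (h1 T).2]
  exact ⟨sum_le_sum fun e _ => (X_sandwich sides U h2 E k e 1).1,
    sum_le_sum fun e _ => (X_sandwich sides U h2 E k e 1).2⟩

end Vale.Agent.P046.Order
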