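import Vale.Agent.P046.Present
import Vale.Agent.P046.Order

/-!
Gluing `Order` to the removal chain: the law of the final graph of random triangle removal, its
restart after any number of steps, and its description by iid labels (P046).
-/

set_option linter.unusedSectionVars false

namespace Vale.Agent.P046.Leave

open Finset MeasureTheory

variable {n : ℕ}

/-- The three-element vertex sets. -/
abbrev Tri (n : ℕ) := {t : Finset (Fin n) // t.card = 3}

/-- The sides of a triangle. -/
def side (t : Tri n) : Finset (Finset (Fin n)) := sides t.1

theorem mem_triangles {E : Finset (Finset (Fin n))} {t : Finset (Fin n)} :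
    t ∈ triangles E ↔ t.card = 3 ∧ sides t ⊆ E := by
  simp [triangles]

theorem mem_cands_iff {E : Finset (Finset (Fin n))} {t : Tri n} :
    t ∈ Order.cands side E ↔ t.1 ∈ triangles E := by
  rw [Order.mem_cands, mem_triangles]
  refine ⟨fun h => ⟨t.2, h.1⟩, fun h => ⟨h.2, ?_⟩⟩
  rw [side, sides, ← card_pos, card_powersetCard, t.2]
  decide

theorem map_cands (E : Finset (Finset (Fin n))) :
    (Order.cands side E).map (Function.Embedding.subtype _) = triangles E := by
  ext t
  simp only [mem_map, Function.Embedding.subtype_apply]
  constructor
  · rintro ⟨s, hs, rfl⟩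
    exact mem_cands_iff.1 hs
  · exact fun h => ⟨⟨t, (mem_triangles.1 h).1⟩, mem_cands_iff.2 h, rfl⟩

/-- Expectation of `f` at the final graph of triangle removal started at `E`. -/
noncomputable def endEX (f : Finset (Finset (Fin n)) → ℝ) (E : Finset (Finset (Fin n))) : ℝ :=
  Order.seq side f E

theorem cands_nonempty_iff {E : Finset (Finset (Fin n))} :
    (Order.cands side E).Nonempty ↔ (triangles E).card ≠ 0 := by
  rw [← map_cands E, card_map, ← card_pos, Nat.pos_iff_ne_zero]

theorem endEX_stop (f : Finset (Finset (Fin n)) → ℝ) {E : Finset (Finset (Fin n))}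
    (h : (triangles E).card = 0) : endEX f E = f E :=
  Order.seq_of_empty side f fun hc => cands_nonempty_iff.1 hc h

/-- The defining equation: one step of the chain preserves `endEX`. -/
theorem step_endEX (f : Finset (Finset (Fin n)) → ℝ) (E : Finset (Finset (Fin n))) :
    step (endEX f) E = endEX f E := by
  unfold step
  split_ifs with h
  · rfl
  · unfold endEX
    rw [Order.seq_of_nonempty side f (cands_nonempty_iff.2 h), ← map_cands E, sum_map, card_map]
    rfl

/-- Restart: the final graph seen from the state after `i` steps. -/
theorem EX_endEX (f : Finset (Finset (Fin n)) → ℝ) :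
    ∀ (i k : ℕ) (E : Finset (Finset (Fin n))),
      EX (fun _ _ => True) k i E (endEX f) = endEX f E
  | 0, k, E => by simp [EX]
  | i + 1, k, E => by
    simp only [EX, if_true, EX_endEX f i]
    exact step_endEX f E

/-- On any event, a nonnegative functional of the final graph is at least its restarted part. -/
theorem EX_le_endEX {f : Finset (Finset (Fin n)) → ℝ} (hf : ∀ F, 0 ≤ endEX f F)
    (Good : ℕ → Finset (Finset (Fin n)) → Prop) (i k : ℕ) (E : Finset (Finset (Fin n))) :
    EX Good k i E (endEX f) ≤ endEX f E :=
  (EX_mono_good (Good' := fun _ _ => True) (fun _ _ _ => trivial) hf i k E).trans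
    (EX_endEX f i k E).le

theorem endEX_nonneg {f : Finset (Finset (Fin n)) → ℝ} (hf : ∀ F, 0 ≤ f F) :
    ∀ E : Finset (Finset (Fin n)), 0 ≤ endEX f E := fun E => by
  rw [endEX, ← (Order.integral_final_labels side f E).2]
  exact integral_nonneg fun U => hf _

theorem endEX_mono {f g : Finset (Finset (Fin n)) → ℝ} (h : ∀ F, f F ≤ g F)
    (E : Finset (Finset (Fin n))) : endEX f E ≤ endEX g E := by
  rw [endEX, endEX, ← (Order.integral_final_labels side f E).2,
    ← (Order.integral_final_labels side g E).2]
  exact integral_mono (Order.integral_final_labels side f E).1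
    (Order.integral_final_labels side g E).1 fun U => h _

theorem endEX_const (c : ℝ) (E : Finset (Finset (Fin n))) : endEX (fun _ => c) E = c := by
  rw [endEX, ← (Order.integral_final_labels side (fun _ => c) E).2]
  simp

/-- The final graph has a law: expectations are integrals over iid labels. -/
theorem endEX_eq_integral (f : Finset (Finset (Fin n)) → ℝ) (E : Finset (Finset (Fin n))) :
    endEX f E = ∫ U, f (Order.final side U E) ∂(Order.labels (Tri n)) :=
  (Order.integral_final_labels side f E).2.symm

/-- Running for at least as many steps as edges reaches the final graph. -/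
theorem EX_eq_endEX (f : Finset (Finset (Fin n)) → ℝ) :
    ∀ (i k : ℕ) (E : Finset (Finset (Fin n))), E.card ≤ i →
      EX (fun _ _ => True) k i E f = endEX f E
  | 0, k, E, h => by
    have h0 : (triangles E).card = 0 := by
      rw [card_eq_zero]
      by_contra hne
      obtain ⟨t, ht⟩ := nonempty_iff_ne_empty.2 hne
      exact absurd (three_le_card ht) (by omega)
    simp [EX, endEX_stop f h0]
  | i + 1, k, E, h => by
    simp only [EX, if_true]
    by_cases h0 : (triangles E).card = 0
    · rw [endEX_stop f h0]
      unfold step
      rw [if_pos h0]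
      exact stopped f h0 i (k + 1)
    · rw [← step_endEX f E]
      unfold step
      rw [if_neg h0, if_neg h0]
      refine congrArg (· / _) (sum_congr rfl fun t ht => EX_eq_endEX f i (k + 1) _ ?_)
      have := card_sdiff_sides ht
      have := three_le_card ht
      omega
where
  stopped (f : Finset (Finset (Fin n)) → ℝ) {E : Finset (Finset (Fin n))}
      (h0 : (triangles E).card = 0) : ∀ i k : ℕ, EX (fun _ _ => True) k i E f = f E
  | 0, k => by simp [EX]
  | i + 1, k => by
    simp only [EX, if_true]
    unfold step
    rw [if_pos h0]
    exact stopped f h0 i (k + 1)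

/-- Almost surely, in label coordinates, the size of the final graph is sandwiched. -/
theorem card_sandwich (E : Finset (Finset (Fin n))) (k : ℕ) :
    ∀ᵐ U ∂(Order.labels (Tri n)),
      ∑ e ∈ E, Order.Y side U E (2 * k + 1) e 1 ≤ (Order.final side U E).card ∧
        ((Order.final side U E).card : ℝ) ≤ ∑ e ∈ E, Order.Y side U E (2 * k) e 1 :=
  Order.card_final_sandwich side E k

end Vale.Agent.P046.Leave
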