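import Mathlib

namespace Vale.Agent.P046

open Finset

variable {n : ℕ}

/-- The three edges of a triangle, as 2-element subsets. -/
def sides (t : Finset (Fin n)) : Finset (Finset (Fin n)) := t.powersetCard 2

/-- The triangles of the graph whose edge set is `E`. -/
def triangles (E : Finset (Finset (Fin n))) : Finset (Finset (Fin n)) :=
  ((Finset.univ : Finset (Fin n)).powersetCard 3).filter (fun t => sides t ⊆ E)

/-- The expected number of triangles after `i` steps of random triangle removal from `E`
(zero if the process has already stopped). -/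
noncomputable def expTriangles : ℕ → Finset (Finset (Fin n)) → ℝ
  | 0, E => (triangles E).card
  | i + 1, E => if (triangles E).card = 0 then 0
      else (∑ t ∈ triangles E, expTriangles i (E \ sides t)) / (triangles E).card

lemma card_sides {E : Finset (Finset (Fin n))} {t : Finset (Fin n)} (ht : t ∈ triangles E) :
    (sides t).card = 3 := by
  simp only [triangles, mem_filter, mem_powersetCard] at ht
  simp [sides, ht.1.2, Nat.choose]

lemma common_sides {E : Finset (Finset (Fin n))} {t u : Finset (Fin n)} (ht : t ∈ triangles E)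
    (hu : u ∈ triangles E) (h : t ≠ u) : (sides t ∩ sides u).card ≤ 1 := by
  simp only [triangles, mem_filter, mem_powersetCard] at ht hu
  rw [card_le_one]
  intro a ha b hb
  simp only [sides, mem_inter, mem_powersetCard] at ha hb
  by_contra hab
  apply h
  have h3 : 3 ≤ (t ∩ u).card := by
    have h1 : a ∪ b ⊆ t ∩ u := by
      intro x hx
      simp only [mem_union, mem_inter] at hx ⊢
      rcases hx with hx | hx
      · exact ⟨ha.1.1 hx, ha.2.1 hx⟩
      · exact ⟨hb.1.1 hx, hb.2.1 hx⟩
    have h2 : 3 ≤ (a ∪ b).card := by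
      by_contra hc
      have ha' : a = a ∪ b := eq_of_subset_of_card_le subset_union_left (by rw [ha.1.2]; omega)
      have hb' : b = a ∪ b := eq_of_subset_of_card_le subset_union_right (by rw [hb.1.2]; omega)
      exact hab (ha'.trans hb'.symm)
    exact h2.trans (card_le_card h1)
  have e1 : t ∩ u = t := eq_of_subset_of_card_le inter_subset_left (by rw [ht.1.2]; exact h3)
  have e2 : t ∩ u = u := eq_of_subset_of_card_le inter_subset_right (by rw [hu.1.2]; exact h3)
  exact e1.symm.trans e2

lemma triangles_sdiff (E : Finset (Finset (Fin n))) (t : Finset (Fin n)) :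
    triangles (E \ sides t) = (triangles E).filter (fun u => Disjoint (sides u) (sides t)) := by
  ext u
  simp only [triangles, mem_filter, subset_sdiff]
  tauto

lemma card_sdiff_sides {E : Finset (Finset (Fin n))} {t : Finset (Fin n)}
    (ht : t ∈ triangles E) : (E \ sides t).card = E.card - 3 := by
  have h2 : sides t ⊆ E := (mem_filter.1 ht).2
  rw [card_sdiff_of_subset h2, card_sides ht]

lemma three_le_card {E : Finset (Finset (Fin n))} {t : Finset (Fin n)}
    (ht : t ∈ triangles E) : 3 ≤ E.card := by
  have h := card_le_card (mem_filter.1 ht).2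
  rwa [card_sides ht] at h

/-- One step: summed over the possible choices. -/
lemma sum_step (E : Finset (Finset (Fin n))) :
    ∑ t ∈ triangles E, ((triangles (E \ sides t)).card : ℝ) ≤
      ((triangles E).card : ℝ) ^ 2 * (1 - 9 / E.card) + 2 * (triangles E).card := by
  set T := triangles E with hT
  set d : Finset (Fin n) → ℝ := fun e => ∑ t ∈ T, if e ∈ sides t then (1:ℝ) else 0 with hd
  have hcount : ∀ t ∈ T, ∑ e ∈ E, (if e ∈ sides t then (1:ℝ) else 0) = 3 := by
    intro t ht
    rw [sum_boole]
    have h2 : sides t ⊆ E := (mem_filter.1 ht).2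
    have h1 : E.filter (fun e => e ∈ sides t) = sides t := by
      ext e
      simp only [mem_filter]
      exact ⟨fun h => h.2, fun h => ⟨h2 h, h⟩⟩
    rw [h1, card_sides ht]
    norm_num
  have hsum : ∑ e ∈ E, d e = 3 * T.card := by
    simp only [hd]
    rw [sum_comm, sum_congr rfl hcount]
    simp [mul_comm]
  have hsq : ∑ e ∈ E, d e ^ 2
      ≤ ∑ t ∈ T, ∑ u ∈ T, ((if Disjoint (sides u) (sides t) then (0:ℝ) else 1)
          + if t = u then 2 else 0) := by
    have : ∑ e ∈ E, d e ^ 2 = ∑ t ∈ T, ∑ u ∈ T, ∑ e ∈ E,
        (if e ∈ sides t then (1:ℝ) else 0) * (if e ∈ sides u then (1:ℝ) else 0) := by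
      simp only [hd, sq, sum_mul_sum]
      rw [sum_comm]
      exact sum_congr rfl (fun t _ => sum_comm)
    rw [this]
    refine sum_le_sum (fun t ht => sum_le_sum (fun u hu => ?_))
    have h1 : ∑ e ∈ E, (if e ∈ sides t then (1:ℝ) else 0) * (if e ∈ sides u then (1:ℝ) else 0)
        = ((sides t ∩ sides u).card : ℝ) := by
      simp only [ite_mul, one_mul, zero_mul, ← ite_and]
      rw [sum_boole]
      congr 2
      have h2 : sides t ⊆ E := (mem_filter.1 ht).2
      ext e
      simp only [mem_filter, mem_inter]
      exact ⟨fun h => h.2, fun h => ⟨h2 h.1, h⟩⟩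
    rw [h1]
    by_cases htu : t = u
    · subst htu
      have hne : ¬ Disjoint (sides t) (sides t) := by
        rw [disjoint_self]
        intro h
        have := card_sides ht
        simp only [Finset.bot_eq_empty] at h
        simp [h] at this
      simp only [inter_self, card_sides ht, if_neg hne, if_true]
      norm_num
    · simp only [if_neg htu, add_zero]
      by_cases hdis : Disjoint (sides u) (sides t)
      · simp [if_pos hdis, disjoint_iff_inter_eq_empty.1 hdis.symm]
      · simp only [if_neg hdis]
        exact_mod_cast common_sides ht hu htu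
  have hsplit : ∑ t ∈ T, ∑ u ∈ T, ((if Disjoint (sides u) (sides t) then (0:ℝ) else 1)
          + if t = u then 2 else 0)
      = (T.card : ℝ) ^ 2 - ∑ t ∈ T, ((triangles (E \ sides t)).card : ℝ) + 2 * T.card := by
    have h1 : ∀ t ∈ T, ∑ u ∈ T, ((if Disjoint (sides u) (sides t) then (0:ℝ) else 1)
          + if t = u then 2 else 0)
        = (T.card : ℝ) - ((triangles (E \ sides t)).card : ℝ) + 2 := by
      intro t ht
      rw [sum_add_distrib, sum_ite_eq, if_pos ht, triangles_sdiff, ← hT, ← sum_boole]
      congr 1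
      rw [eq_sub_iff_add_eq, ← sum_add_distrib]
      have : ∀ u ∈ T, ((if Disjoint (sides u) (sides t) then (0:ℝ) else 1)
          + if Disjoint (sides u) (sides t) then (1:ℝ) else 0) = 1 := by
        intro u _
        split_ifs <;> norm_num
      rw [sum_congr rfl this]
      simp
    rw [sum_congr rfl h1, sum_add_distrib, sum_sub_distrib]
    simp only [sum_const, nsmul_eq_mul]
    ring
  have hcs := sq_sum_le_card_mul_sum_sq (s := E) (f := d)
  rw [hsum] at hcs
  rcases Nat.eq_zero_or_pos E.card with hE | hE
  · have hT0 : T = ∅ := by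
      rw [eq_empty_iff_forall_notMem]
      intro t ht
      have := three_le_card (hT ▸ ht)
      omega
    simp [hT0]
  · have hm : (0:ℝ) < E.card := by exact_mod_cast hE
    have h9 : 9 * (T.card:ℝ) ^ 2 / E.card ≤ ∑ e ∈ E, d e ^ 2 := by
      rw [div_le_iff₀ hm]
      nlinarith
    have : (T.card:ℝ) ^ 2 * (1 - 9 / E.card) = (T.card:ℝ) ^ 2 - 9 * (T.card:ℝ) ^ 2 / E.card := by
      ring
    linarith

/-- The trajectory bound as a function of the number `m` of edges. -/
noncomputable def bound (a : ℝ) (m : ℕ) : ℝ := a * (m:ℝ) ^ 3 + (m:ℝ) / 3 + 2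

noncomputable def weight : ℕ → ℕ → ℝ
  | 0, _ => 1
  | i + 1, m => max 0 (1 - 9 / (m:ℝ)) * weight i (m - 3)

lemma weight_nonneg : ∀ i m, 0 ≤ weight i m
  | 0, _ => zero_le_one
  | i + 1, m => mul_nonneg (le_max_left _ _) (weight_nonneg i _)

lemma two_le_bound {a : ℝ} (ha : 0 ≤ a) (m : ℕ) : 2 ≤ bound a m := by
  have h1 : 0 ≤ a * (m:ℝ) ^ 3 := by positivity
  have h2 : (0:ℝ) ≤ (m:ℝ) / 3 := by positivity
  unfold bound
  linarith

lemma bound_step {a : ℝ} (ha : 0 ≤ a) {m : ℕ} (hm : 9 < m) :
    bound a m * (1 - 9 / (m:ℝ)) + 2 ≤ bound a (m - 3) := by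
  have hm' : (9:ℝ) < m := by exact_mod_cast hm
  have hne : (m:ℝ) ≠ 0 := by linarith
  unfold bound
  rw [Nat.cast_sub (by omega : 3 ≤ m)]
  have e : (a * (m:ℝ) ^ 3 + (m:ℝ) / 3 + 2) * (1 - 9 / (m:ℝ)) + 2
      = a * ((m:ℝ) ^ 3 - 9 * (m:ℝ) ^ 2) + ((m:ℝ) / 3 - 1) + 2 * (1 - 9 / (m:ℝ)) := by
    field_simp
    ring
  rw [e]
  have h : a * ((m:ℝ) ^ 3 - 9 * (m:ℝ) ^ 2) ≤ a * ((m:ℝ) - 3) ^ 3 :=
    mul_le_mul_of_nonneg_left (by nlinarith) ha
  have h9 : (0:ℝ) ≤ 9 / (m:ℝ) := by positivity
  push_cast
  linarith

lemma bound_mul_le {a : ℝ} (ha : 0 ≤ a) (m : ℕ) :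
    max 0 (1 - 9 / (m:ℝ)) * bound a m ≤ bound a (m - 3) := by
  have h2 := two_le_bound ha (m - 3)
  rcases le_or_gt (1 - 9 / (m:ℝ)) 0 with h | h
  · rw [max_eq_left h]
    linarith
  · rw [max_eq_right h.le]
    rcases Nat.eq_zero_or_pos m with rfl | hm0
    · simp [bound]
    · have hm' : (0:ℝ) < m := by exact_mod_cast hm0
      have hm9 : 9 < m := by
        have : (9:ℝ) / m < 1 := by linarith
        rw [div_lt_one hm'] at this
        exact_mod_cast this
      have := bound_step ha hm9
      have : (9:ℝ) / m > 0 := by positivity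
      linarith

lemma weight_mul_bound {a : ℝ} (ha : 0 ≤ a) :
    ∀ i m, weight i m * bound a m ≤ bound a (m - 3 * i)
  | 0, m => by simp [weight]
  | i + 1, m => by
    have h1 := weight_mul_bound ha i (m - 3)
    have h2 := mul_le_mul_of_nonneg_left (bound_mul_le ha m) (weight_nonneg i (m - 3))
    rw [show m - 3 * (i + 1) = m - 3 - 3 * i by omega]
    simp only [weight]
    linarith

lemma expTriangles_le {a : ℝ} (ha : 0 ≤ a) :
    ∀ (i : ℕ) (E : Finset (Finset (Fin n))),
      expTriangles i E ≤ bound a (E.card - 3 * i)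
        + weight i E.card * ((triangles E).card - bound a E.card)
  | 0, E => by simp [expTriangles, weight]
  | i + 1, E => by
    have hw := weight_mul_bound ha (i + 1) E.card
    unfold expTriangles
    split_ifs with hQ
    · rw [hQ, Nat.cast_zero]
      linarith
    · have hQ' : (0:ℝ) < (triangles E).card := by
        exact_mod_cast Nat.pos_of_ne_zero hQ
      rw [div_le_iff₀ hQ']
      have h1 : ∀ t ∈ triangles E, expTriangles i (E \ sides t) ≤
          bound a (E.card - 3 - 3 * i)
          + weight i (E.card - 3) *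
            ((triangles (E \ sides t)).card - bound a (E.card - 3)) := by
        intro t ht
        have := expTriangles_le ha i (E \ sides t)
        rwa [card_sdiff_sides ht] at this
      refine (sum_le_sum h1).trans ?_
      rw [sum_add_distrib, ← mul_sum, sum_sub_distrib]
      simp only [sum_const, nsmul_eq_mul]
      rw [show E.card - 3 * (i + 1) = E.card - 3 - 3 * i by omega]
      set Q : ℝ := ((triangles E).card : ℝ)
      have hs := sum_step E
      have key : ∑ t ∈ triangles E, ((triangles (E \ sides t)).card : ℝ) - Q * bound a (E.card - 3)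
          ≤ max 0 (1 - 9 / (E.card:ℝ)) * (Q - bound a E.card) * Q := by
        rcases le_or_gt (1 - 9 / (E.card:ℝ)) 0 with h | h
        · rw [max_eq_left h]
          have h2 := two_le_bound ha (E.card - 3)
          nlinarith
        · rw [max_eq_right h.le]
          have hm0 : 0 < E.card := by
            obtain ⟨t, ht⟩ := card_pos.1 (Nat.pos_of_ne_zero hQ)
            have := three_le_card ht
            omega
          have hm' : (0:ℝ) < E.card := by exact_mod_cast hm0
          have hm9 : 9 < E.card := by
            have : (9:ℝ) / E.card < 1 := by linarith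
            rw [div_lt_one hm'] at this
            exact_mod_cast this
          have hb := bound_step ha hm9
          have : (9:ℝ) / E.card > 0 := by positivity
          nlinarith
      simp only [weight]
      have := mul_le_mul_of_nonneg_left key (weight_nonneg i (E.card - 3))
      linarith

/-- The trajectory bound from the complete graph. -/
theorem expTriangles_complete (n i : ℕ) :
    expTriangles i ((Finset.univ : Finset (Fin n)).powersetCard 2) ≤
      (n.choose 3 : ℝ) * (((n.choose 2 - 3 * i : ℕ) : ℝ) / n.choose 2) ^ 3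
        + ((n.choose 2 - 3 * i : ℕ) : ℝ) / 3 + 2 := by
  set a : ℝ := (n.choose 3 : ℝ) / (n.choose 2 : ℝ) ^ 3 with hadef
  have ha : 0 ≤ a := by positivity
  have h := expTriangles_le ha i ((Finset.univ : Finset (Fin n)).powersetCard 2)
  have hQ : ((triangles ((Finset.univ : Finset (Fin n)).powersetCard 2)).card : ℝ)
      ≤ n.choose 3 := by
    have : (triangles ((Finset.univ : Finset (Fin n)).powersetCard 2)).card ≤ n.choose 3 := by
      refine (card_le_card (filter_subset _ _)).trans ?_
      simp
    exact_mod_cast this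
  have hM : ((Finset.univ : Finset (Fin n)).powersetCard 2).card = n.choose 2 := by simp
  rw [hM] at h
  have hb : (n.choose 3 : ℝ) ≤ bound a (n.choose 2) := by
    unfold bound
    rcases Nat.eq_zero_or_pos (n.choose 2) with h0 | h0
    · have : n.choose 3 = 0 := by
        rw [Nat.choose_eq_zero_iff] at h0 ⊢
        omega
      rw [this, h0]
      norm_num
    · have hne : ((n.choose 2 : ℕ) : ℝ) ≠ 0 := by positivity
      rw [hadef, div_mul_cancel₀ _ (pow_ne_zero 3 hne)]
      have : (0:ℝ) ≤ (n.choose 2 : ℝ) / 3 := by positivity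
      linarith
  have hmain : bound a (n.choose 2 - 3 * i) =
      (n.choose 3 : ℝ) * (((n.choose 2 - 3 * i : ℕ) : ℝ) / n.choose 2) ^ 3
        + ((n.choose 2 - 3 * i : ℕ) : ℝ) / 3 + 2 := by
    rw [hadef, bound, div_pow]
    ring
  rw [← hmain]
  nlinarith [weight_nonneg i (n.choose 2)]

end Vale.Agent.P046
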