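import Vale.Agent.P046.Extension
import Vale.Agent.P046.Present

/-!
# P046: the upper tool for rooted counts along the removal process

While the process is good, a rooted pattern has few copies: `upperProb` bounds the presence
probability of one edge, and `EX_count_ge_le`, `EX_exists_count_ge_le` turn it into tail bounds for
rooted extension counts, for one root and for all roots at once.
-/

set_option linter.unusedSectionVars false

namespace Vale.Agent.P046.Upper

open Finset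

variable {n : ℕ} {V R : Type*} [Fintype V] [DecidableEq V] [Fintype R] [DecidableEq R]

/-- The bound on the probability that one edge is present after `i` good steps from `m₀` edges. -/
noncomputable def upperProb (m₀ i : ℕ) (ε : ℕ → ℝ) : ℝ :=
  min 1 (Real.exp (3 / ((m₀ : ℝ) - 3 * i) + ∑ j ∈ range i, 3 * ε j / ((m₀ : ℝ) - 3 * j)) *
    (((m₀ : ℝ) - 3 * i) / m₀))

lemma upperProb_le_one (m₀ i : ℕ) (ε : ℕ → ℝ) : upperProb m₀ i ε ≤ 1 := min_le_left _ _

lemma upperProb_nonneg {m₀ i : ℕ} (ε : ℕ → ℝ) (hm : 3 * i + 3 ≤ m₀) :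
    0 ≤ upperProb m₀ i ε := by
  have h : (3 : ℝ) * i + 3 ≤ m₀ := by exact_mod_cast hm
  refine le_min zero_le_one (mul_nonneg (Real.exp_pos _).le (div_nonneg ?_ (by positivity)))
  linarith

/-- A set of at most `L` edges is present with probability at most `upperProb ^ #S`. -/
theorem EX_present_le_pow {Good : ℕ → Finset (Finset (Fin n)) → Prop} {a Q ε : ℕ → ℝ}
    {m₀ i L : ℕ} (E₀ : Finset (Finset (Fin n)))
    (hgood : ∀ j F, Good j F → ((triangles F).card : ℝ) ≤ Q j ∧
      ∀ e ∈ F, a j ≤ ((triangles F).filter fun t => e ∈ sides t).card)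
    (hm : 3 * i + 3 ≤ m₀) (hQ : ∀ j, j < i → 0 ≤ Q j)
    (haq : ∀ j, j < i → 3 * (1 - ε j) / ((m₀ : ℝ) - 3 * j) ≤ (a j - L) / Q j)
    (S : Finset (Finset (Fin n))) (hS : #S ≤ L) :
    EX Good 0 i E₀ (fun F => if S ⊆ F then 1 else 0) ≤ upperProb m₀ i ε ^ #S := by
  classical
  have h1 := EX_present_pow_le S (a := a) (q := Q) (ε := ε) E₀
    (fun j F hF => ⟨(hgood j F hF).1, fun e _ heF => (hgood j F hF).2 e heF⟩) hm (fun j hj => by
      refine (haq j hj).trans (div_le_div_of_nonneg_right ?_ (hQ j hj))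
      have : (#S : ℝ) ≤ L := by exact_mod_cast hS
      linarith)
  have h2 : EX Good 0 i E₀ (fun F => if S ⊆ F then 1 else 0) ≤ 1 :=
    calc EX Good 0 i E₀ (fun F => if S ⊆ F then 1 else 0)
        ≤ EX Good 0 i E₀ (fun _ => 1) := EX_mono i 0 E₀ fun F _ _ => by
          split_ifs <;> norm_num
      _ ≤ EX (fun _ _ => True) 0 i E₀ (fun _ => 1) :=
          EX_mono_good (fun _ _ _ => trivial) (fun _ => zero_le_one) i 0 E₀
      _ = 1 := EX_true_const 1 i 0 E₀
  unfold upperProb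
  rcases le_total (1 : ℝ) (Real.exp (3 / ((m₀ : ℝ) - 3 * i) +
      ∑ j ∈ range i, 3 * ε j / ((m₀ : ℝ) - 3 * j)) * (((m₀ : ℝ) - 3 * i) / m₀)) with h | h
  · rw [min_eq_left h, one_pow]
    exact h2
  · rw [min_eq_right h]
    exact h1

/-- **Tail of one rooted count**: the root edges `S₀` are present and the count is at least `lam`. -/
theorem EX_count_ge_le {Good : ℕ → Finset (Finset (Fin n)) → Prop} {a Q ε : ℕ → ℝ}
    {m₀ i L r : ℕ} (E₀ : Finset (Finset (Fin n)))
    (hgood : ∀ j F, Good j F → ((triangles F).card : ℝ) ≤ Q j ∧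
      ∀ e ∈ F, a j ≤ ((triangles F).filter fun t => e ∈ sides t).card)
    (hm : 3 * i + 3 ≤ m₀) (hQ : ∀ j, j < i → 0 ≤ Q j)
    (haq : ∀ j, j < i → 3 * (1 - ε j) / ((m₀ : ℝ) - 3 * j) ≤ (a j - L) / Q j)
    (ρ : R → Fin n) (H : Finset (Finset (V ⊕ R))) (hH : ∀ e ∈ H, ∃ v : V, Sum.inl v ∈ e)
    (S₀ : Finset (Finset (Fin n))) (hS₀ : ∀ f ∈ S₀, ∀ x ∈ f, ∃ s : R, ρ s = x)
    (hL : #S₀ + r * #H ≤ L) {M lam : ℝ} (hlam : 0 < lam)
    (hM : ∀ K : Finset V,
      (n : ℝ) ^ #K * upperProb m₀ i ε ^ #(Extension.touching H K) ≤ M) :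
    EX Good 0 i E₀ (fun F => if S₀ ⊆ F ∧ lam ≤ (Extension.count ρ H F : ℝ) then 1 else 0) ≤
      upperProb m₀ i ε ^ #S₀ *
        (Extension.momentConst (Fintype.card V) (Fintype.card R) r * M / lam) ^ r := by
  classical
  set q := upperProb m₀ i ε with hq
  have hq0 : 0 ≤ q := upperProb_nonneg ε hm
  set w : Finset (Finset (Fin n)) → ℝ := fun F => if S₀ ⊆ F then
    EX Good 0 i E₀ (fun G => if G = F then 1 else 0) else 0 with hw
  have hwn : ∀ F, 0 ≤ w F := fun F => by
    simp only [hw]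
    split_ifs
    · exact EX_nonneg (fun G => by split_ifs <;> norm_num) i 0 E₀
    · exact le_rfl
  have hP : ∀ S : Finset (Finset (Fin n)), #S ≤ r * #H →
      (∀ f ∈ S, ∃ x ∈ f, ∀ s : R, ρ s ≠ x) →
      ∑ F, (if S ⊆ id F then w F else 0) ≤ q ^ #S₀ * q ^ #S := by
    intro S hS hout
    have hdis : Disjoint S₀ S := by
      rw [disjoint_left]
      intro f h0 h1
      obtain ⟨x, hx, hne⟩ := hout f h1
      obtain ⟨s, hs⟩ := hS₀ f h0 x hx
      exact hne s hs
    have hcard : #(S₀ ∪ S) = #S₀ + #S := card_union_of_disjoint hdis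
    have h := EX_present_le_pow E₀ hgood hm hQ haq (S₀ ∪ S) (by omega)
    rw [hcard, pow_add] at h
    refine le_of_eq_of_le ?_ h
    rw [EX_eq_sum]
    refine sum_congr rfl fun F _ => ?_
    simp only [hw, id, union_subset_iff]
    by_cases h0 : S₀ ⊆ F <;> by_cases h1 : S ⊆ F <;> simp [h0, h1]
  have h := Extension.weight_count_ge_le ρ H hH w hwn id (pow_nonneg hq0 #S₀) hq0
    (upperProb_le_one m₀ i ε) hlam r hP hM
  refine le_of_eq_of_le ?_ h
  rw [EX_eq_sum]
  refine sum_congr rfl fun F _ => ?_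
  simp only [hw, id]
  by_cases h0 : S₀ ⊆ F <;> by_cases h1 : lam ≤ (Extension.count ρ H F : ℝ) <;> simp [h0, h1]

open Classical in
/-- **Tail of the largest rooted count** over all injective roots, the root edges `H₀` present. -/
theorem EX_exists_count_ge_le {Good : ℕ → Finset (Finset (Fin n)) → Prop} {a Q ε : ℕ → ℝ}
    {m₀ i L r : ℕ} (E₀ : Finset (Finset (Fin n)))
    (hgood : ∀ j F, Good j F → ((triangles F).card : ℝ) ≤ Q j ∧
      ∀ e ∈ F, a j ≤ ((triangles F).filter fun t => e ∈ sides t).card)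
    (hm : 3 * i + 3 ≤ m₀) (hQ : ∀ j, j < i → 0 ≤ Q j)
    (haq : ∀ j, j < i → 3 * (1 - ε j) / ((m₀ : ℝ) - 3 * j) ≤ (a j - L) / Q j)
    (H : Finset (Finset (V ⊕ R))) (hH : ∀ e ∈ H, ∃ v : V, Sum.inl v ∈ e)
    (H₀ : Finset (Finset R)) (hL : #H₀ + r * #H ≤ L) {M lam : ℝ} (hlam : 0 < lam)
    (hM : ∀ K : Finset V,
      (n : ℝ) ^ #K * upperProb m₀ i ε ^ #(Extension.touching H K) ≤ M) :
    EX Good 0 i E₀ (fun F => if ∃ ρ : R → Fin n, Function.Injective ρ ∧
        H₀.image (fun e => e.image ρ) ⊆ F ∧ lam ≤ (Extension.count ρ H F : ℝ) then 1 else 0) ≤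
      (n : ℝ) ^ Fintype.card R * (upperProb m₀ i ε ^ #H₀ *
        (Extension.momentConst (Fintype.card V) (Fintype.card R) r * M / lam) ^ r) := by
  set B := upperProb m₀ i ε ^ #H₀ *
    (Extension.momentConst (Fintype.card V) (Fintype.card R) r * M / lam) ^ r with hB
  have hB0 : 0 ≤ B := by
    have hM0 : 0 ≤ M := le_trans (mul_nonneg (by positivity)
      (pow_nonneg (upperProb_nonneg ε hm) _)) (hM ∅)
    have hC : 0 ≤ Extension.momentConst (Fintype.card V) (Fintype.card R) r := by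
      unfold Extension.momentConst
      positivity
    exact mul_nonneg (pow_nonneg (upperProb_nonneg ε hm) _)
      (pow_nonneg (div_nonneg (mul_nonneg hC hM0) hlam.le) r)
  set s := (univ : Finset (R → Fin n)).filter Function.Injective with hs
  have h1 : EX Good 0 i E₀ (fun F => if ∃ ρ : R → Fin n, Function.Injective ρ ∧
      H₀.image (fun e => e.image ρ) ⊆ F ∧ lam ≤ (Extension.count ρ H F : ℝ) then 1 else 0) ≤
      ∑ ρ ∈ s, EX Good 0 i E₀ (fun F => if H₀.image (fun e => e.image ρ) ⊆ F ∧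
        lam ≤ (Extension.count ρ H F : ℝ) then 1 else 0) := by
    rw [← EX_sum]
    refine EX_mono i 0 E₀ fun F _ _ => ?_
    split_ifs with h
    · obtain ⟨ρ, hρ, h0, h2⟩ := h
      refine le_trans ?_ (single_le_sum (fun σ _ => ?_) (mem_filter.2 ⟨mem_univ ρ, hρ⟩))
      · rw [if_pos ⟨h0, h2⟩]
      · split_ifs <;> norm_num
    · exact sum_nonneg fun σ _ => by split_ifs <;> norm_num
  refine h1.trans ((sum_le_sum (g := fun _ => B) fun ρ hρ => ?_).trans ?_)
  · have hi : Function.Injective ρ := (mem_filter.1 hρ).2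
    have hc : #(H₀.image (fun e => e.image ρ)) = #H₀ :=
      card_image_of_injective _ (image_injective hi)
    have h := EX_count_ge_le (r := r) E₀ hgood hm hQ haq ρ H hH (H₀.image (fun e => e.image ρ))
      (fun f hf x hx => by
        obtain ⟨e, -, rfl⟩ := mem_image.1 hf
        obtain ⟨u, -, hu⟩ := mem_image.1 hx
        exact ⟨u, hu⟩) (by omega) hlam hM
    rwa [hc] at h
  · rw [sum_const, nsmul_eq_mul]
    refine mul_le_mul_of_nonneg_right ?_ hB0
    have : #s ≤ n ^ Fintype.card R := by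
      refine (card_filter_le _ _).trans ?_
      simp
    exact_mod_cast this

end Vale.Agent.P046.Upper
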